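import Vale.Agent.P014U.Pq.Obs

/-!
# P014U, block PRESQ: the presentation over the rational numbers, framed at infinity
-/

set_option linter.all false

noncomputable section

namespace Vale.Agent.P014U.Pq

open NumberField Module Cardinal
open Vale.Agent.P022 Vale.Agent.P022K Vale.Agent.P022K.G2
open Vale.Agent.P022K.G2.Hb Vale.Agent.P022K.G2.Cx
open Vale.Agent.P022D.W (dec)
open Vale.Agent.P022E.GW (Ov)
open X4F.Pr (F2 Iu ac ac_zero zero_ac mp Zk Bk cnt fin_of)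
open scoped Pointwise Classical

variable [Pp] {R : Type} [CommRing R] {n μ ν κ : Type} [Fintype n] [DecidableEq n]
  [Fintype μ] [Fintype ν] {T : Finset ℕ} {a : GQ → Matrix n n R} {y : κ → Plc}
  {b : κ → GQ → Matrix n μ R} {N : Matrix ν μ R}

/-- the residual count: obstructions against cocycles -/
theorem res_cnt [Fintype κ] {a : GQ → Matrix n n F2} {b : κ → GQ → Matrix n μ F2}
    (c2 : Fintype.card n ≤ 2) (h : Gd ⊤ T a) (h2 : pp ∈ T) (ov : ∀ i, y i ∈ Ab (insert 0 T))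
    (un : ∀ i j, ∀ g : GQ, y j = g • y i → i = j) (fr : ∃ i w, y i = ip w)
    (coc : ∀ i, ∀ g ∈ ⊤ ⊓ St (y i), ∀ h ∈ ⊤ ⊓ St (y i), b i (g * h) = b i g + a g * b i h)
    (lc : ∀ i, ∃ W : Subgroup GQ, IsOpen (W : Set GQ) ∧ ∀ g ∈ ⊤ ⊓ St (y i),
      ∀ w ∈ ⊤ ⊓ St (y i), w ∈ W → b i (g * w) = b i g)
    (rel : (∀ v : n → F2, (∀ g, Matrix.vecMul v (a g) = om pp F2 g • v) → v = 0) ∨
      ∃ l ∈ T, l ≠ pp ∧ ∃ Q, Ov l Q ∧ (∀ g ∈ dec Q, a g = 1) ∧ ∀ i, ∀ g : GQ, fp Q ≠ g • y i) :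
    rq (Zc (Iu ⊤ T) ⊤ (fun i => ⊤ ⊓ St (y i)) fun g => (a g).mulVecLin)
      (Bk (Iu ⊤ T) ⊤ (fun i => ⊤ ⊓ St (y i)) (fun g => (a g).mulVecLin)
        fun i g => (b i g).mulVecLin) + Fintype.card μ + Fintype.card n ≤
      rk (Zs F2 ⊤ T a (fun i => St (y i)) b) + (∑ i, wt (y i) : ℕ) * Fintype.card n := by
  have k1 := core h2 h.pr inferInstance (by rwa [finrank_fintype_fun_eq_card]) (gd_rp h) ov un fr
    (rel.imp (fun c => (Submodule.eq_bot_iff _).2 fun f hf => ?_)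
      fun ⟨l, hl, l2, Q, o, t, e⟩ => ⟨l, hl, l2, Q, o, fun x m => by
        rw [t x m]; exact Matrix.mulVecLin_one, e⟩)
  · have k2 := cnt (b := fun i g => (b i g).mulVecLin) (gd_rp h)
      (fun i => (inf_le_left : ⊤ ⊓ St (y i) ≤ ⊤)) fun i l => z1_of (gd_rp h).one ?_ fun x hx y hy => ?_
    · rw [← zs_eq h] at k2
      rw [rank_fun'] at k1 k2
      refine can (fin_z h.opn h.pr inferInstance (gd_rp h)) ?_
      generalize rk (Z1 (Iu ⊤ T) ⊤ fun g => (a g).mulVecLin) = z,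
        ((∑ i, wt (y i) : ℕ) : Cardinal) * Fintype.card n = m at *
      calc _ = _ + (z + Fintype.card μ) + (Fintype.card n : Cardinal) := by ring
        _ ≤ _ := add_le_add_left k2 _
        _ = _ + (Fintype.card n : Cardinal) + _ := add_right_comm _ _ _
        _ ≤ _ := add_le_add_left k1 _
        _ = _ := by ring
    · obtain ⟨W, oW, bw⟩ := lc i
      obtain ⟨W', hW', le⟩ := ex_lv' oW
      exact ⟨W', hW', fun x hx y hy m => by simp only [bw x hx y hy (le m)]⟩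
    · simp [d1_apply, coc i x hx y hy, Matrix.add_mulVec]
  · have := c (fun i => f (Pi.single i 1)) fun x => funext fun i => by
      have := hf x trivial (Pi.single i 1)
      rw [Pi.smul_apply, smul_eq_mul, ← this, pi_eq_sum_univ' (Matrix.mulVecLin _ _), map_sum]
      simp [Matrix.vecMul, dotProduct, mul_comm]
    exact LinearMap.pi_ext' fun i => LinearMap.ext_ring (congrFun this i)

variable [IsLocalRing R] [Finite R] {π : R →+* F2}

/-- **the presentation over the rationals**; one of the places `y i` is infinite -/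
theorem presS [Fintype κ] (c2 : Fintype.card n ≤ 2) (h : Gd ⊤ T a) (h2 : pp ∈ T)
    (ov : ∀ i, y i ∈ Ab (insert 0 T)) (un : ∀ i j, ∀ g : GQ, y j = g • y i → i = j)
    (fr : ∃ i w, y i = ip w)
    (coc : ∀ i, ∀ g ∈ ⊤ ⊓ St (y i), ∀ h ∈ ⊤ ⊓ St (y i), ∃ β : Matrix n ν R,
      b i (g * h) = b i g + a g * b i h + β * N)
    (lc : ∀ i, ∃ W : Subgroup GQ, IsOpen (W : Set GQ) ∧ ∀ g ∈ ⊤ ⊓ St (y i),
      ∀ w ∈ ⊤ ⊓ St (y i), w ∈ W → b i (g * w) = b i g) (min : N.map π = 0)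
    (rel : (∀ v : n → F2, (∀ g, Matrix.vecMul v ((a g).map π) = om pp F2 g • v) → v = 0) ∨
      ∃ l ∈ T, l ≠ pp ∧ ∃ Q, Ov l Q ∧ (∀ g ∈ dec Q, (a g).map π = 1) ∧
        ∀ i, ∀ g : GQ, fp Q ≠ g • y i) :
    ∃ (g r : ℕ) (Q : Matrix (Fin r) (Fin g) R) (u : GQ → Matrix n (Fin g) R)
      (w : Matrix μ (Fin g) R), Pres π ⊤ T a (fun i => St (y i)) b N Q u w ∧
      r + Fintype.card μ + Fintype.card n = g + (∑ i, wt (y i)) * Fintype.card n := by
  obtain ⟨g, r, Q, u, w, hp, le⟩ := ex_pres (P := fun i => St (y i)) h coc lc min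
  have k := res_cnt (b := fun i g => (b i g).map π) c2 (h.map π) h2 ov un fr (fun i x hx z hz => by
      obtain ⟨β, hβ⟩ := coc i x hx z hz
      simp [hβ, Matrix.map_add, Matrix.map_mul, min])
    (fun i => (lc i).imp fun W hW => ⟨hW.1, fun x hx z hz m => by rw [hW.2 x hx z hz m]⟩) rel
  rw [show rk (Zs F2 ⊤ T (fun g => (a g).map π) (fun i => St (y i)) fun i g => (b i g).map π) = g
    from ?_] at k
  · have k3 : r + Fintype.card μ + Fintype.card n ≤ g + (∑ i, wt (y i)) * Fintype.card n := by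
      rw [← Nat.cast_le (α := Cardinal), Nat.cast_add, Nat.cast_add, Nat.cast_add, Nat.cast_mul]
      exact (add_le_add_left (add_le_add_left le _) _).trans k
    obtain ⟨Q', hq⟩ := hp.pad (r' := g + (∑ i, wt (y i)) * Fintype.card n -
      (Fintype.card μ + Fintype.card n)) (by omega)
    exact ⟨g, _, Q', u, w, hq, by omega⟩
  · have := Nat.finite_of_card_ne_zero (hp.crd.trans_ne (pow_ne_zero g pp_ne))
    have e := hp.crd
    rw [Module.natCard_eq_pow_finrank (K := F2), Nat.card_zmod] at e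
    rw [rk, ← finrank_eq_rank, Nat.pow_right_injective pp_prime.two_le e]

/-- **framed at infinity, relaxed at `T`: generators minus relations is the rank** -/
theorem presq (c2 : Fintype.card n ≤ 2) (h : Gd ⊤ T a) (h2 : pp ∈ T) {k : GQ} (hk : IsConj k)
    (rel : (∀ v : n → F2, (∀ g, Matrix.vecMul v ((a g).map π) = om pp F2 g • v) → v = 0) ∨
      ∃ l ∈ T, l ≠ pp ∧ ∃ Q, Ov l Q ∧ ∀ g ∈ dec Q, (a g).map π = 1) :
    ∃ (r : ℕ) (Q : Matrix (Fin r) (Fin (r + Fintype.card n)) R)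
      (u : GQ → Matrix n (Fin (r + Fintype.card n)) R), Q.map π = 0 ∧
      (∀ (M : Type) [AddCommGroup M] [Module R M], Set.BijOn
        (fun (v : Fin (r + Fintype.card n) → M) γ => ac (u γ) v) {v | ac Q v = 0} (Zq M T a k)) ∧
      Nat.card (Zq F2 T (fun g => (a g).map π) k) = pp ^ (r + Fintype.card n) := by
  obtain ⟨φ, hk⟩ := hk
  obtain ⟨g, r, Q, u, w, hp, e⟩ := presS (y := fun _ : Unit => ip (InfinitePlace.mk φ))
    (b := fun _ _ => (0 : Matrix n Empty R)) (N := (0 : Matrix Empty Empty R)) (π := π) c2 h h2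
    (fun _ => mem_ab_ip.2 (Set.mem_insert _ _)) (fun _ _ _ _ => rfl) ⟨(), _, rfl⟩
    (fun _ _ _ _ _ => ⟨0, Subsingleton.elim _ _⟩) (fun _ => ⟨⊤, isOpen_univ, fun _ _ _ _ _ => rfl⟩)
    (Subsingleton.elim _ _) (rel.imp id fun ⟨l, a, b, Q, c, d⟩ =>
      ⟨l, a, b, Q, c, d, fun _ _ => Sum.inl_ne_inr⟩)
  obtain rfl : r + Fintype.card n = g := by simpa [wt_ip] using e
  refine ⟨r, Q, u, hp.min, fun M _ _ => ⟨fun v hv => (zq_iff hk _).1
    ((hp.bij M).1 ⟨hv, Subsingleton.elim _ _⟩).1, fun v hv v' hv' c => (hp.bij M).2.1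
      ⟨hv, Subsingleton.elim _ _⟩ ⟨hv', Subsingleton.elim _ _⟩
        (Prod.ext c (Subsingleton.elim _ _)), fun x hx => ?_⟩, ?_⟩
  · obtain ⟨v, hv, c⟩ := (hp.bij M).2.2 (show (x, 0) ∈ _ from
      ⟨(zq_iff hk (x, 0)).2 hx, Subsingleton.elim _ _⟩)
    exact ⟨v, hv.1, congrArg Prod.fst c⟩
  · rw [← hp.crd]
    have : (fun (_ : Unit) (_ : GQ) => (0 : Matrix n Empty R).map π) = fun _ _ => 0 :=
      Subsingleton.elim _ _
    rw [this]
    exact Nat.card_congr ⟨fun x => ⟨(x.1, 0), (zq_iff hk (x.1, 0)).2 x.2⟩,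
      fun x => ⟨x.1.1, (zq_iff hk _).1 x.2⟩, fun _ => rfl,
      fun x => Subtype.ext (Prod.ext rfl (Subsingleton.elim _ _))⟩

/-- the number of generators is bounded when a bounded number of primes is added -/
theorem bnd {a : GQ → Matrix n n F2} (h : Gd ⊤ T a) (h2 : pp ∈ T) : ∃ C : ℕ,
    ∀ (μ κ : Type) [Fintype μ] (T' : Finset ℕ) (P : κ → Subgroup GQ)
      (b : κ → GQ → Matrix n μ F2), (∀ l ∈ T', l.Prime) →
      Nat.card (Zs F2 ⊤ (T ∪ T') a P b) ≤ pp ^ (C + Fintype.card μ + Fintype.card n * T'.card) := by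
  obtain ⟨C, hC⟩ := Cardinal.lt_aleph0.1 (fin_z h.opn h.pr inferInstance (gd_rp h))
  refine ⟨C, fun μ κ _ T' P b pr => (fin_of ((zs_rk h).trans ((add_le_add_left
    (bnd_z h.opn rfl h2 pr (gd_rp h)) _).trans_eq ?_))).2⟩
  rw [hC, rank_fun']
  push_cast
  ring

theorem bndq {a : GQ → Matrix n n F2} (h : Gd ⊤ T a) (h2 : pp ∈ T) : ∃ C : ℕ,
    ∀ (T' : Finset ℕ) (k : GQ), IsConj k → (∀ l ∈ T', l.Prime) →
      Nat.card (Zq F2 (T ∪ T') a k) ≤ pp ^ (C + Fintype.card n * T'.card) := by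
  obtain ⟨C, hC⟩ := bnd h h2
  refine ⟨C, fun T' k ⟨φ, hk⟩ pr => le_trans (le_of_eq ?_) ((hC Empty Unit T'
    (fun _ => St (ip (InfinitePlace.mk φ))) (fun _ _ => 0) pr).trans_eq (by simp))⟩
  exact Nat.card_congr ⟨fun x => ⟨(x.1, 0), (zq_iff hk (x.1, 0)).2 x.2⟩,
    fun x => ⟨x.1.1, (zq_iff hk _).1 x.2⟩, fun _ => rfl,
    fun x => Subtype.ext (Prod.ext rfl (Subsingleton.elim _ _))⟩

end Vale.Agent.P014U.Pq
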