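import Vale.Agent.P014U.Pq.Lo0
import Vale.Agent.P014U.G2.Dim
import Vale.Agent.P004F.Pr.Core

/-!
# P014U, block PRESQ: the local inequalities for planes over the prime field (helper96)
-/

set_option linter.all false

noncomputable section

namespace Vale.Agent.P014U.Pq.Co

open NumberField Module Cardinal
open Vale.Agent.P022 Vale.Agent.P022.C Vale.Agent.P022.H916 Vale.Agent.P022K Vale.Agent.P022K.G2
open Vale.Agent.P022K.G2.Cn Vale.Agent.P022K.G2.Hb Vale.Agent.P022K.G2.Cx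
open Vale.Agent.P022K.G2.Dm (z2_cj b2_cj ex_fld ord_div ex_unif)
open Vale.Agent.P027M.S (Inert)
open Vale.Agent.P022D.W (dec inP_le_dec exists_phi phi_mem dec_gen)
open Vale.Agent.P022E.GW (Ov)
open Vale.Agent.P014U.G2 (nil uns dim1 dimt)
open Vale.Agent.P014U.G2.Dm (B bc btr ne_of_odd kch val_act not_one)
open Vale.Agent.P004F.Pr (ex_fun rq_bot)
open scoped Classical

variable {p : ℕ} [Fact p.Prime] {N : Type} [AddCommGroup N] [Module (ZMod p) N] {I : Set GQ}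
  {ρ : GQ → End (ZMod p) N} {Γ U : Subgroup GQ} {l : ℕ} {P : Ideal (𝓞 Qb)} {T : Finset ℕ}

theorem lp (oU : IsOpen (U : Set GQ)) (zU : U ≤ Gz p) (o : Ov l P)
    (d : Pd ∅ (⊤ ⊓ dec P) U ρ (om p (ZMod p))) : rk (Z1 ∅ (⊤ ⊓ dec P) ρ) =
      rk (Hm (⊤ ⊓ dec P) ρ (om p (ZMod p))) +
        (if l = p then 2 else 1 : ℕ) * Module.rank (ZMod p) N := by
  rw [lpc p _ N ⊤ U l P ρ isOpen_univ oU zU o d, Subgroup.relIndex_top_left]
  split_ifs <;> norm_num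

theorem dt (h : p ≠ 2) : DIMT p := dimt (nil h) (dim1 (nil h))

/-- **the local lower bound at one place** -/
theorem ll (h : p ≠ 2) (ok : Ok p T ⊤ U ρ) (o : Ov l P) :
    rk (Hm (⊤ ⊓ dec P) ρ (om p (ZMod p))) + (if l = p then 2 else 1 : ℕ) * Module.rank (ZMod p) N ≤
      rk (Z1 ∅ (⊤ ⊓ dec P) ρ) := by
  obtain ⟨f, r, L, tu, j | ⟨B, H, c, hz, bg, t⟩⟩ := ok
  · exact (lp (le_open L.lv) L.uz o (pd_res (pd_of L f r j tu) inf_le_left)).ge
  have ub := c.uh.trans c.hb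
  have oB := Subgroup.isOpen_mono ub (le_open L.lv)
  have iB := (L.lv.up ub).relIndex
  obtain ⟨X, _, _, ξ, fX, rX, tX, jX, -, -, s3⟩ := stb pr0 prt p GQ _ N _ ⊤ B H U ρ f r c L.lv tu
  have m := (mem_ab_fp (T := {l})).2 ⟨l, rfl, o⟩
  have hx : Reps ⊤ (Ab {l}) fun _ : Unit => fp P := ⟨fun _ g _ => Plc.ab_smul m g,
    fun y hy => (Plc.ab_trans m hy).elim fun g e => ⟨(), g, trivial, e⟩, fun _ _ _ _ _ => rfl⟩
  obtain ⟨κ, _, y, hy⟩ := reps GQ Plc Unit ⊤ B _ _ hx c.bg iB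
  obtain ⟨s1, s2⟩ := s3 Plc Unit κ _ _ y hx hy
  replace s2 := s2 _ (mu_om (p := p) (ZMod p) ⊤)
  have hx' : Reps ⊤ Set.univ fun _ : Unit => (1 : GQ) := ⟨fun _ _ _ => trivial,
    fun y _ => ⟨(), y, trivial, (mul_one y).symm⟩, fun _ _ _ _ _ => rfl⟩
  obtain ⟨κ', _, y', hy'⟩ := reps GQ GQ Unit ⊤ B _ _ hx' c.bg iB
  obtain ⟨s4, -⟩ := s3 GQ Unit κ' _ _ y' hx' hy'
  have z0 : ∀ (M : Type) [AddCommGroup M] [Module (ZMod p) M] (σ : GQ → End (ZMod p) M), σ 1 = 1 →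
      rk (Z1 ∅ (Dv ⊤ (fun _ : Unit => (1 : GQ)) default) σ) = 0 := fun M _ _ σ e =>
    Submodule.rank_eq_zero.2 ((Submodule.eq_bot_iff _).2 fun z hz => funext fun g => by
      by_cases a : g = 1
      · rw [a]; exact Z1.one hz e
      · exact hz.2.1 g fun b => a ((mul_one g).symm.trans b.2))
  have s5 : Fintype.card κ' ≤ B.index := by
    rw [← Rps.cnt hy' (Plc.idx oB) (O := Set.univ) (x₀ := 1)
      (fun y => ⟨fun _ => ⟨y, (mul_one y).symm⟩, fun _ => trivial⟩) subset_rfl, Fintype.card,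
      Finset.card_eq_sum_ones]
    exact Finset.sum_le_sum fun j _ => by
      rw [if_pos (Set.mem_univ _)]; exact Nat.pos_of_ne_zero (le_of_open oB _).relIndex
  have b : ∀ j, rk (Hm (Dv B y j) ρ (om p (ZMod p))) + Module.rank (ZMod p) N +
      ((if l = p then 1 else 0) * if y j ∈ Ab {l} then B.relIndex (St (y j)) else 0 : ℕ) *
        Module.rank (ZMod p) N ≤ rk (Z1 ∅ (Dv B y j) ρ) := fun j => by
    have m := Rps.self hy j
    rw [if_pos m]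
    obtain ⟨_, rfl, Q, a, e⟩ | ⟨e, -⟩ := m
    · have := llbB (lpc p) (dt h) L c hz a t (r.mono subset_rfl c.bg)
      rw [P004F.Pr.dv_fp e, e, st_fp, ite_mul, one_mul, zero_mul, add_assoc, ← one_add_mul]
      convert this
    · exact absurd e.symm o.1.ne_zero
  have b1 := Finset.sum_le_sum fun j (_ : j ∈ Finset.univ) => b j
  rw [Finset.sum_add_distrib, Finset.sum_add_distrib, ← Finset.sum_mul _ _ (Module.rank _ N),
    ← Nat.cast_sum, ← Finset.mul_sum, deg B _ κ y l oB hy rfl (.inr o.1), ← s2, Finset.sum_const,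
    nsmul_eq_mul, Finset.card_univ] at b1
  have lX := lp (le_open L.lv) L.uz o (pd_res (pd_of L fX rX jX tX) inf_le_left)
  simp only [Fintype.sum_unique, Fintype.card_unique, Nat.cast_one, one_mul] at s1 s4 b1
  rw [z0 _ _ r.one, z0 _ _ rX.one, zero_add, zero_add] at s4
  have s6 := ((self_le_add_left _ _).trans s4.ge).trans
    (mul_le_mul_left (Nat.cast_le.2 s5) (Module.rank (ZMod p) N))
  rw [Dv, show MulAction.stabilizer GQ (fp P) = dec P from st_fp P] at s1 b1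
  rw [lX] at s1
  refine can (add_lt_aleph0 (add_lt_aleph0 (fin_hm (A := ⊤ ⊓ dec P) (ρ := ξ)
    (ω := om p (ZMod p)) fX) (fin_cr fX (if l = p then 2 else 1))) (fin_cr f (Fintype.card κ))) ?_
  rw [← add_assoc (rk (Z1 ∅ _ ρ)), s1]
  refine le_trans ?_ (add_le_add_left b1 _)
  split_ifs
  · rw [one_mul]
    exact le_of_eq_of_le (by push_cast; ring) (add_le_add_left (add_le_add_right s6 _) _)
  · exact le_of_eq (by push_cast; ring)

/-- the action of conjugation on the local classes -/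
theorem cjl (h : p ≠ 2) (hΓ : IsOpen (Γ : Set GQ)) (oU : IsOpen (U : Set GQ)) (le : U ≤ Γ)
    (zU : U ≤ Gz p) (nU : Nz Γ U) (o : Ov l P) (od : ¬ p ∣ U.relIndex (Γ ⊓ dec P))
    {z : GQ → GQ → ZMod p} (hz : z ∈ Z2 ∅ (U ⊓ dec P) (tp p)) {g : GQ} (hg : g ∈ Γ ⊓ dec P) :
    (fun x y => z (g * x * g⁻¹) (g * y * g⁻¹)) - oz p g • z ∈ B p (U ⊓ dec P) := by
  have hN := nil h
  have l1 : U ⊓ dec P ≤ Γ ⊓ dec P := inf_le_inf_right _ le
  obtain ⟨u, u1, u2, σ, s, s1⟩ := uch p Γ l P hΓ o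
  obtain ⟨τ, t1, t2, t3⟩ := ne_of_odd (A' := U) u1 s (s1 ▸ one_ne_zero) od
  obtain ⟨K, _, _, j, rfl⟩ := ex_fld hΓ
  obtain ⟨M, _, _, _, _, jM, ρ, D, hM, -⟩ := exists_fld j U oU le nU
  obtain ⟨π, p0, p1⟩ := ex_unif (blw jM o)
  have cu : Ch (U ⊓ dec P) u := u1.mono l1
  have us : ∀ a : M, a ≠ 0 → (cup u (ka p (jM a)) ∈ B p (U ⊓ dec P) ↔ (p : ℤ) ∣ ordv (blw jM o) a) :=
    fun a a0 => hM ▸ uns hN M jM l P _ u a (hM ▸ zU) o rfl (hM ▸ cu)
      (fun g a i => u2 g (le (hM ▸ a)) i) ⟨τ, ⟨hM ▸ t1, t2.2⟩, t3⟩ a0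
  obtain ⟨γ, c, m⟩ := dim1 hN U l P u z oU zU o cu (fun g a i => u2 g (le a) i)
    ⟨τ, ⟨t1, t2.2⟩, t3⟩ hz
  obtain ⟨a, ha⟩ := hN U l P u _ γ oU zU o cu (kch jM (hM ▸ zU) p0 (hM ▸ inf_le_left)) c
    fun e => not_one (p := p) (p1 ▸ (us π p0).1 e)
  have hc := btr m ha
  have q0 : ρ ⟨g, hg.1⟩⁻¹ π ≠ 0 := (map_ne_zero _).2 p0
  have hb : (fun x y => cup u (ka p (jM π)) (g * x * g⁻¹) (g * y * g⁻¹)) -
      oz p g • cup u (ka p (jM π)) ∈ B p (U ⊓ dec P) := by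
    refine bc (Submodule.smul_mem _ (oz p g) ((us _ (div_ne_zero q0 p0)).2 ?_)) fun x a y b => ?_
    · rw [ord_div _ q0 p0, ordv, val_act D o _ ((dec P).inv_mem hg.2), ← ordv, sub_self]
      exact dvd_zero _
    · have fy : ∀ t, y (jM t) = jM t := (hM ▸ b.1 : y ∈ GK jM)
      have e := ka_conj ((map_ne_zero jM).2 q0) g (zU b.1) (fy _)
      rw [← D.act, ← AlgEquiv.mul_apply, show g * (⟨g, hg.1⟩⁻¹ : GK j).1 = 1 from mul_inv_cancel g,
        AlgEquiv.one_apply] at e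
      simp only [cup, Pi.sub_apply, Pi.smul_apply, smul_eq_mul]
      rw [e, map_div₀, ka_div ((map_ne_zero jM).2 q0) ((map_ne_zero jM).2 p0) (zU b.1) (fy _) (fy _),
        u1.1 _ (mul_mem hg (l1 a)) _ (inv_mem hg), u1.1 _ hg _ (l1 a), u1.inv hg, D.act]
      ring
  refine bc (sub_mem (add_mem (b2_cj (A := U ⊓ dec P) (fun x m => ⟨nU g hg.1 x m.1,
    (dec P).mul_mem ((dec P).mul_mem hg.2 m.2) ((dec P).inv_mem hg.2)⟩) hc) (Submodule.smul_mem _ a hb))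
    (Submodule.smul_mem _ (oz p g) hc)) fun x _ y _ => ?_
  simp only [Pi.sub_apply, Pi.add_apply, Pi.smul_apply, smul_eq_mul]
  ring

theorem pdk (f : Module.Finite (ZMod p) N) (r : Rp I ⊤ ρ) (od : ¬ p ∣ (Uk r).relIndex Γ) :
    Pd ∅ Γ (Uk r) ρ (om p (ZMod p)) :=
  have r' := r.mono (Set.empty_subset _) (le_top (a := Γ))
  ⟨f, r', pr0 GQ _ N ∅ Γ _ ρ r' (mt (ZMod.natCast_eq_zero_iff _ p).1 od), uk_nz r,
    le_of_open (uk_open r) Γ, fun _ _ m => m.1, mu_om _ Γ, fun _ _ m => (om_eq_one _).2 m.2⟩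

/-- the local invariant when the image has order prime to `p` -/
theorem inv_ex (h : p ≠ 2) (fN : Module.Finite (ZMod p) N) (r : Rp I ⊤ ρ) (o : Ov l P)
    (od : ¬ p ∣ (Uk r).relIndex (⊤ ⊓ dec P)) : ∃ f : (GQ → GQ → N) →ₗ[ZMod p] N,
      (∀ z ∈ Z2 ∅ (⊤ ⊓ dec P) ρ, f z ∈ H0 (⊤ ⊓ dec P) ρ (om p (ZMod p))) ∧
      (∀ z ∈ Z2 ∅ (⊤ ⊓ dec P) ρ, f z = 0 → z ∈ B2 ∅ (⊤ ⊓ dec P) ρ) ∧
      ∀ z (φ : Dual (ZMod p) N), (fun g j => φ (z g j)) ∈ B p (Uk r ⊓ dec P) → φ (f z) = 0 := by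
  have d := pdk fN r od
  have zU : Uk r ≤ Gz p := fun _ m => m.2
  obtain ⟨L, l1, l2⟩ := ex_fun ((h2_congr (A := Uk r ⊓ dec P) fun g m =>
    (ch_om (ZMod p) (zU m.1)).symm).trans_le (dt h _ _ l P _ (uk_open r) o (rp_om _ _)).1)
  let b := Module.finBasis (ZMod p) N
  let f : (GQ → GQ → N) →ₗ[ZMod p] N :=
    ∑ i, (L ∘ₗ ((b.coord i).compLeft GQ).compLeft GQ).smulRight (b i)
  have hf : ∀ z (φ : Dual (ZMod p) N), φ (f z) = L fun g j => φ (z g j) := fun z φ => by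
    have e : (fun g j => φ (z g j)) = ∑ i, φ (b i) • fun g j => b.coord i (z g j) :=
      funext fun g => funext fun j => by
        conv_lhs => rw [← b.sum_repr (z g j)]
        simp only [map_sum, map_smul, Finset.sum_apply, Pi.smul_apply, smul_eq_mul]
        exact Finset.sum_congr rfl fun _ _ => mul_comm _ _
    rw [e]
    simp only [f, LinearMap.sum_apply, map_sum, LinearMap.smulRight_apply, map_smul, smul_eq_mul,
      mul_comm]
    rfl
  have le : Uk r ⊓ dec P ≤ ⊤ ⊓ dec P := inf_le_inf_right _ le_top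
  have zz : ∀ z ∈ Z2 ∅ (⊤ ⊓ dec P) ρ, ∀ φ : Dual (ZMod p) N,
      (fun g j => φ (z g j)) ∈ Z2 ∅ (Uk r ⊓ dec P) (tp p) := fun z hz φ =>
    Z2.amap (Z2.mono hz subset_rfl le) φ.toAddMonoidHom fun g hg n => by rw [hg.1.1]; rfl
  refine ⟨f, fun z hz g hg => ?_, fun z hz h0 => ?_, fun z φ m => (hf z φ).trans (l1 _ m)⟩
  · have : f z = oz p g • ρ g⁻¹ (f z) := by
      rw [← sub_eq_zero]
      refine (Module.forall_dual_apply_eq_zero_iff (ZMod p) _).1 fun φ => ?_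
      have c3 := l1 _ (add_mem (B2.amap (ρ' := tp p) (B2.mono (cj0 GQ _ N ∅ _ ρ z g d.rp hz hg)
        subset_rfl le) φ.toAddMonoidHom fun a ha n => by rw [ha.1.1]; rfl) (cjl h isOpen_univ
          (uk_open r) le_top zU (uk_nz r) o od (zz z hz (φ ∘ₗ ρ g⁻¹)) hg))
      rw [map_sub, map_smul, hf, show φ (ρ g⁻¹ (f z)) = _ from hf z (φ ∘ₗ ρ g⁻¹), ← map_smul,
        ← map_sub, ← c3]
      congr 1
      funext x y
      simp
    rw [om_oz]
    conv_lhs => rw [this, map_smul, r.inv trivial]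
  · refine tr2 GQ _ N ∅ _ _ ρ z d.rp d.prj d.le hz (B2.mono (A := ⊤ ⊓ dec P ⊓ Uk r)
      (Γ := Uk r ⊓ dec P) ?_ subset_rfl fun _ m => ⟨m.2, m.1.2⟩)
    have e : z = ∑ i, fun g j => b.coord i (z g j) • b i := funext fun g => funext fun j => by
      rw [Finset.sum_apply, Finset.sum_apply]; exact (b.sum_repr (z g j)).symm
    rw [e]
    refine Submodule.sum_mem _ fun i _ => B2.amap (l2 _ (zz z hz (b.coord i)) ?_)
      (LinearMap.toSpanSingleton (ZMod p) N (b i)).toAddMonoidHom fun g hg n => by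
        rw [hg.1.1]; rfl
    rw [← hf, h0, map_zero]

/-- **the local Euler characteristic** -/
theorem eu (h : p ≠ 2) (c2 : finrank (ZMod p) N ≤ 2) (r : Rp I ⊤ ρ) (ok : Ok p T ⊤ (Uk r) ρ)
    (o : Ov l P) : h2 ∅ (⊤ ⊓ dec P) ρ + (if l = p then 2 else 1 : ℕ) * Module.rank (ZMod p) N ≤
      rk (Z1 ∅ (⊤ ⊓ dec P) ρ) := by
  have fN := ok.fin
  have rD := r.mono (Set.empty_subset _) (le_top (a := ⊤ ⊓ dec P))
  obtain od | ⟨s, hs, e, f, μ, ν, u⟩ := dich c2 r (⊤ ⊓ dec P)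
  · have d := pdk fN r od
    obtain ⟨f, f1, f2, -⟩ := inv_ex h fN r o od
    rw [lp (uk_open r) (fun _ m => m.2) o d,
      ← prd GQ _ N ∅ _ _ ρ _ fN d.rp d.prj d.nz d.tri d.mu d.om, ← rq_bot]
    exact add_le_add_left (rq_le f f1 f2) _
  have oH := Subgroup.isOpen_mono (u.uh r) (uk_open r)
  have oB := Subgroup.isOpen_mono (u.hb r) oH
  have rB := ok.rp.mono subset_rfl (le_top (a := u.B r))
  have S := u.ses r
  have k1 := dt h _ _ l P _ oB o ((rp1 S rB).mono (Set.empty_subset _) le_rfl)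
  have k2 := dt h _ _ l P _ oB o ((rp2 S rB).mono (Set.empty_subset _) le_rfl)
  by_cases le : ⊤ ⊓ dec P ≤ u.B r
  · have eB : u.B r ⊓ dec P = ⊤ ⊓ dec P :=
      le_antisymm (inf_le_inf_right _ le_top) (le_inf le inf_le_right)
    have hz : u.H r ≤ Gz p := fun _ m => m.2.2
    have k : ∀ θ : GQ → ZMod p, (h2 ∅ (u.B r ⊓ dec P) (ch θ) ≤ 1 ∧
        ((∃ g ∈ u.B r ⊓ dec P, θ g ≠ om p _ g) → h2 ∅ (u.B r ⊓ dec P) (ch θ) = 0)) →
        h2 ∅ (⊤ ⊓ dec P) (ch θ) ≤ rk (Hm (⊤ ⊓ dec P) (ch θ) (om p _)) := fun θ k => by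
      rw [eB] at k
      by_cases e : ∀ g ∈ ⊤ ⊓ dec P, θ g = om p _ g
      · exact k.1.trans (one_hm e)
      · push Not at e
        exact (k.2 e).trans_le bot_le
    have s := (step_e (ses_mono S le) rD).trans
      (add_le_add_left (add_le_add (k _ k1) (k _ k2)) _)
    rw [lp oH hz o (pd_res (pd_ch ok.lg (u.chn r) hz (rp1 S rB) (u.t1 r)) le),
      lp oH hz o (pd_res (pd_ch ok.lg (u.chn r) hz (rp2 S rB) (u.t2 r)) le)] at s
    rw [rank_ses S]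
    refine can (add_lt_aleph0 (hm_one.trans_lt one_lt_aleph0) (hm_one.trans_lt one_lt_aleph0))
      (le_of_eq_of_le ?_ (s.trans_eq (add_comm _ _)))
    ring
  obtain ⟨g, hg, n⟩ := SetLike.not_le_iff_exists.1 le
  obtain ⟨d, d1, d2, d3, d4, d5⟩ := u.neg r hs hg n
  have ne : (-1 : ZMod p) ≠ om p _ d := by
    rw [(om_eq_one _).2 d3]
    haveI : Fact (2 < p) := ⟨lt_of_le_of_ne (Fact.out : p.Prime).two_le h.symm⟩
    exact ZMod.neg_one_ne_one
  have k := h2_ext (ses_mono S inf_le_left) (r.mono (Set.empty_subset _) le_top)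
    (rq_eq_zero.1 (k1.2 ⟨d, ⟨d2, d1.2⟩, d4 ▸ ne⟩)) (rq_eq_zero.1 (k2.2 ⟨d, ⟨d2, d1.2⟩, d5 ▸ ne⟩))
  rw [h2, rq_eq_zero.2 fun z hz => tr2 GQ _ N ∅ _ (u.B r) ρ z rD (pr0 GQ _ N ∅ _ _ ρ rD
    (mt (ZMod.natCast_eq_zero_iff _ p).1 (u.ib r hs))) (le_of_open oB _) hz (B2.mono
      (k (Z2.mono hz subset_rfl (inf_le_inf_right _ le_top))) subset_rfl fun _ m => ⟨m.2, m.1.2⟩)]
  exact (add_le_add_left bot_le _).trans (ll h ok o)

open P022E.GW.Unr in
/-- **unramified cocycles**, any unramified module -/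
theorem ur (r : Rp I ⊤ ρ) {z : GQ → GQ → N} (hz : z ∈ Z2 I ⊤ ρ) (o : Ov l P)
    (hI : ∀ i, Inert P i → i ∈ I) : z ∈ B2 ∅ (⊤ ⊓ dec P) ρ := by
  obtain ⟨hl, hP, hPl⟩ := o
  obtain ⟨φ, hφ⟩ := exists_phi hl hP hPl
  obtain ⟨W₁, a1, a2⟩ := r.lv
  obtain ⟨W₂, a3, a4⟩ := hz.2
  have hW := a1.inf a3
  obtain ⟨n, hn, hφn⟩ := ex_pow hW.opn φ
  haveI : NeZero (n * p) := ⟨mul_ne_zero hn (Fact.out : p.Prime).ne_zero⟩
  obtain ⟨δ, V, hV, h1, h2, h3, h4⟩ := P022E.GW.Unr.deg hl hP hPl hφ (NeZero.ne (n * p))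
  have hφd := phi_mem hl hP hφ
  have z1 : ∀ g, z g 1 = ρ g (z 1 1) := fun g => by
    have := hz.1 g trivial 1 trivial 1 trivial
    rw [mul_one, mul_one] at this
    exact (add_right_cancel this).symm
  let e : ℕ → N := fun k => z 1 1 - ∑ j ∈ Finset.range k, z (φ ^ j) φ
  have ea : ∀ a b, e (a + b) = e a + ρ (φ ^ a) (e b) - z (φ ^ a) (φ ^ b) := fun a b => by
    induction b with
    | zero => simp [e, z1 (φ ^ a)]
    | succ b ih =>
      have := hz.1 (φ ^ a) trivial (φ ^ b) trivial φ trivial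
      rw [← pow_succ, ← pow_add] at this
      simp only [e, ← add_assoc a b 1, Finset.sum_range_succ, map_sub, map_add] at ih ⊢
      linear_combination (norm := abel1) ih + this
  have en : ∀ j a, e (a + n * j) = e a + j • ρ (φ ^ a) (e n - z 1 1) := fun j a => by
    induction j with
    | zero => simp
    | succ j ih =>
      have := (a4 (φ ^ (a + n * j)) trivial 1 trivial _ trivial hφn.2).2
      rw [one_mul, z1] at this
      rw [mul_add, mul_one, ← add_assoc, ea, this, ih, pow_add, r.mul _ trivial _ trivial, pow_mul,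
        a2 _ trivial (pow_mem hφn.1 j), mul_one, succ_nsmul, map_sub]
      abel
  have ep : ∀ a, e (a % (n * p)) = e a := fun a => by
    conv_rhs => rw [← Nat.mod_add_div a (n * p), mul_assoc, en, mul_nsmul', ← Nat.cast_smul_eq_nsmul
      (ZMod p) p, ZMod.natCast_self, zero_smul, add_zero]
  have w : ∀ g ∈ dec P, (φ ^ (δ g).val)⁻¹ * g ∈ W₁ ⊓ W₂ := fun g hg => by
    have m := (dec P).pow_mem hφd (δ g).val
    have m' := mul_mem (inv_mem m) hg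
    have := h1 _ m _ m'
    rw [mul_inv_cancel_left, dpow hl hP hφ h1 h2 h3, ZMod.natCast_zmod_val, left_eq_add] at this
    obtain ⟨v, hv, s, hs, c⟩ := split hl hP hPl hφ (dvd_mul_right n p) hV hW.opn h1 h2 h3 h4 hφn m'
      (j := 0) (by simpa using this)
    exact c ▸ mul_mem hv (hW.sub (hI s hs))
  obtain ⟨V', b1, b2⟩ := ex_lv' hV
  refine ⟨fun g => e (δ g).val, ⟨V', b1, fun g hg v hv m => by
    beta_reduce; rw [h1 g hg.2 v hv.2, h4 v (b2 m) hv.2, add_zero]⟩, fun g hg j hj => ?_⟩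
  have e1 := (a4 (φ ^ (δ g).val) trivial j trivial _ trivial (w g hg.2).2).1
  have e2 := (a4 (φ ^ (δ g).val) trivial (φ ^ (δ j).val) trivial _ trivial (w j hj.2).2).2
  have e3 := r.mul (φ ^ (δ g).val) trivial ((φ ^ (δ g).val)⁻¹ * g) trivial
  rw [mul_inv_cancel_left] at e1 e2 e3
  rw [a2 _ trivial (w g hg.2).1, mul_one] at e3
  rw [d1_apply, e1, e2, e3, h1 g hg.2 j hj.2, ZMod.val_add, ep, ea]
  abel

/-- invariants and coinvariants of an unramified module -/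
theorem h0_le (f : Module.Finite (ZMod p) N) (r : Rp I ⊤ ρ) (o : Ov l P) (hl : l ≠ p)
    (hI : ∀ i, Inert P i → i ∈ I) : rk (H0 (⊤ ⊓ dec P) ρ (om p (ZMod p))) ≤
      rk (Hm (⊤ ⊓ dec P) ρ (om p (ZMod p))) := by
  obtain ⟨φ, hφ⟩ := exists_phi o.1 o.2.1 o.2.2
  let A : End (ZMod p) N := ρ φ - om p (ZMod p) φ • 1
  refine (Submodule.rank_mono (s := H0 (⊤ ⊓ dec P) ρ (om p _)) (t := LinearMap.ker A) fun n hn =>
    sub_eq_zero.2 (hn φ ⟨trivial, phi_mem o.1 o.2.1 hφ⟩)).trans (le_of_eq_of_le ?_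
      (Submodule.rank_mono (s := (LinearMap.range A).dualAnnihilator) fun f hf g hg => ?_))
  · rw [← Module.finrank_eq_rank, ← Module.finrank_eq_rank]
    have h1 := LinearMap.finrank_range_add_finrank_ker A
    have h2 := Subspace.finrank_add_finrank_dualAnnihilator_eq (LinearMap.range A)
    congr 1
    omega
  have k : ∀ (a : ℕ) n, f (ρ (φ ^ a) n) = om p _ (φ ^ a) * f n := fun a => by
    induction a with
    | zero => simp [r.one, om_one]
    | succ a ih =>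
      intro n
      have := (Submodule.mem_dualAnnihilator _).1 hf _ ⟨ρ (φ ^ a) n, rfl⟩
      simp only [A, LinearMap.sub_apply, LinearMap.smul_apply, End.one_apply, map_sub, map_smul,
        smul_eq_mul, sub_eq_zero] at this
      rw [pow_succ', mul r, this, ih, om_mul, mul_assoc]
  obtain ⟨a, s, u, hs, hu, rfl⟩ := dec_gen o.1 o.2.1 o.2.2 hφ hg.2 _ (uk_open r)
  intro n
  rw [mul r, mul r, hu.1, rp_in r (hI s hs) trivial, om_mul, om_mul, (om_eq_one _).2 hu.2,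
    (om_eq_one _).2 ((tam p l P o hl).1 s hs), one_mul, mul_one]
  exact k a n

/-- a class which is trivial outside one tame place of degree one is trivial there -/
theorem one1 (h : p ≠ 2) (hO : ONE p) (o : Ov l P) (hl : l ≠ p) (le : dec P ≤ Gz p)
    {z : GQ → GQ → ZMod p} (hz : z ∈ Z2 ∅ ⊤ (ch (om p (ZMod p))))
    (t : ∀ x ∈ Ab Set.univ, (∀ g : GQ, x ≠ g • fp P) → z ∈ B2 ∅ (⊤ ⊓ St x) (ch (om p (ZMod p)))) :
    z ∈ B p (dec P) := by
  have e : Gz p ⊓ dec P = dec P := inf_eq_right.2 le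
  obtain ⟨φ, hφ⟩ := exists_phi o.1 o.2.1 o.2.2
  obtain ⟨u, u1, u2, σ, hσ, u3⟩ := uch p (Gz p) l P Gz_open o
  obtain ⟨β, b1, b2⟩ := dim1 (nil h) (Gz p) l P u z Gz_open le_rfl o u1 u2
    ⟨σ, hσ, u3 ▸ one_ne_zero⟩ (Z2.congr (Z2.mono hz subset_rfl le_top) (fun _ _ _ _ => rfl)
      fun g m => (ch_om _ m.1).symm)
  have ui : ∀ g, Inert P g → u g = 0 := fun g hg => u2 g (le (inP_le_dec hg)) hg
  obtain ⟨s, hs⟩ := (tam p l P o hl).2.2 (ZMod p) (ZMod p) β (fun g j hg hj => b1.1 g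
    (e.ge (inP_le_dec hg)) j (e.ge (inP_le_dec hj))) (b1.2.imp fun W hW =>
      ⟨hW.1, fun w m hw => hW.2 w (e.ge (inP_le_dec hw)) m⟩)
  have k := hO (ZMod p) ⊤ z Unit (fun _ => l) (fun _ => P) (fun _ => φ) (fun _ => u) (fun _ => β)
    (fun _ => s) isOpen_univ hz (fun _ => ⟨o, hl, hφ, le_inf le_top le⟩)
    (fun _ _ _ _ _ => rfl) (fun _ => ⟨e ▸ u1, e ▸ b1, fun g hg => ⟨ui g hg, hs g hg⟩, e ▸ b2⟩)
    fun x hx n => t x hx fun g => n () g trivial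
  rw [Fintype.sum_unique] at k
  have s0 : s = 0 := (mul_eq_zero.1 k).resolve_left fun c =>
    one_ne_zero (u3.symm.trans (unr_zero o hφ (e ▸ u1) ui c hσ.2))
  have := add_mem b2 (unr p _ (Gz p) l P _ Gz_open o (cup_z2 u1 b1) fun g hg j hj i hi a => by
    have m : i ∈ Gz p ⊓ dec P := ⟨hi, inP_le_dec a⟩
    simp only [cup]
    rw [u1.1 g hg i m, b1.1 j hj i m, ui i a, hs i a, s0, smul_zero, add_zero, add_zero]
    exact ⟨rfl, rfl⟩)
  rwa [sub_add_cancel, e] at this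

end Vale.Agent.P014U.Pq.Co
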