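import Vale.Agent.P014T.Pq.Core
import Vale.Agent.P014U.X4F.Pr.Defs
import Vale.Agent.P014U.Pq.Lo1
import Vale.Agent.P014U.G2.Lib

/-!
# P014U, block PRESQ: the count for a module of rank at most two over the rational numbers
(helper60, helper96)
-/

set_option linter.all false

noncomputable section

namespace Vale.Agent.P014U.Pq

open NumberField Module Cardinal
open Vale.Agent.P022 Vale.Agent.P022K Vale.Agent.P022K.G2
open Vale.Agent.P022K.G2.Cn Vale.Agent.P022K.G2.Hb Vale.Agent.P022K.G2.Cx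
open Vale.Agent.P027M.S (Inert)
open Vale.Agent.P022D.W (dec inP_le_dec)
open Vale.Agent.P022E.GW (Ov Fb)
open X4F.Pr (F2 Iu iu_mono ex_lev adapt Ou rq_le2 rq_bot dv_fp)
open Co
open scoped Pointwise Classical

variable [Pp] {Γ U : Subgroup GQ} {T T' : Finset ℕ}
  {N : Type} [AddCommGroup N] [Module F2 N] {ρ : GQ → End F2 N} {ι : Type} {x : ι → Plc}

/-- the values on generators of tame inertia -/
theorem ex_res (h2 : pp ∈ T) (r : Rp (Iu ⊤ T) ⊤ ρ) (hx : Reps (G := GQ) ⊤ (Ab T') x) :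
    ∃ s : (GQ → N) →ₗ[F2] ι → N, ∀ c ∈ C1 F2 N (Iu ⊤ T') ⊤, d1 ρ c ∈ C2 F2 N (Iu ⊤ T) ⊤ →
      (∀ j, s c j ∈ if Ou T (x j) then H0 (Dv ⊤ x j) ρ (om pp F2) else ⊥) ∧
        (s c = 0 → c ∈ C1 F2 N (Iu ⊤ T) ⊤) := by
  have : ∀ j, ∃ τ : GQ, ∀ l ∉ T, ∀ P, Ov l P → x j = fp P → Inert P τ ∧ ka pp l τ = 1 := fun j => by
    by_cases e : Ou T (x j)
    · obtain ⟨l, hl, P, ov, e⟩ := e
      obtain ⟨τ, t⟩ := (tam pp l P ov fun c => hl (c ▸ h2)).2.1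
      refine ⟨τ, fun l' _ P' o' e' => ?_⟩
      obtain rfl : P = P' := Sum.inl.inj (e.symm.trans e')
      obtain rfl := GW.Pl.ov_uniq ov o'
      exact t
    · exact ⟨1, fun l hl P ov c => (e ⟨l, hl, P, ov, c⟩).elim⟩
  choose τ k using this
  refine ⟨.pi fun j => if Ou T (x j) then .proj (τ j) - .proj 1 else 0,
    fun c ⟨V, hV, v⟩ ⟨W, hW, w⟩ => ?_⟩
  have a1 : ∀ g, ∀ u ∈ Iu ⊤ T, c (g * u) = c g + ρ g (c u - c 1) := fun g u m => by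
    have := (w g trivial 1 trivial u trivial (hW.sub m)).2
    simp only [d1_apply, one_mul, mul_one] at this
    rw [map_sub]
    linear_combination (norm := abel1) -this
  have a2 : ∀ g, ∀ u ∈ Iu ⊤ T, c (g * u * g⁻¹) - c 1 = ρ g (c u - c 1) := fun g u m => by
    have m' : g * u * g⁻¹ ∈ Iu ⊤ T := ⟨trivial, in_conj m.2 g⟩
    have := (w 1 trivial g trivial _ trivial (hW.sub m')).1
    simp only [d1_apply, one_mul, rp_in r m' trivial, r.one, End.one_apply, inv_mul_cancel_right,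
      a1 g u m] at this
    linear_combination (norm := abel1) this
  have ad : ∀ j, ∀ l ∉ T, ∀ P, Ov l P → x j = fp P → ∀ g, Inert P g →
      c g - c 1 = ka pp l g • (c (τ j) - c 1) := fun j l hl P ov e g hg => by
    obtain ⟨n, hn⟩ := (tam pp l P ov fun c => hl (c ▸ h2)).2.2 F2 N (fun g => c g - c 1)
      (fun g u hg hu => by
        beta_reduce
        rw [a1 g u ⟨trivial, l, hl, P, ov, hu⟩, rp_in r ⟨trivial, l, hl, P, ov, hg⟩ trivial]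
        simp only [End.one_apply]; abel)
      ⟨V, hV.mono (Set.empty_subset _), fun u m _ => by
        beta_reduce
        rw [← one_mul u, v 1 trivial u trivial m, sub_self]⟩
    rw [hn g hg, hn _ (k j l hl P ov e).1, (k j l hl P ov e).2, map_one, one_smul]
    simp
  refine ⟨fun j => ?_, fun s0 => ex_lev inferInstance isOpen_univ hV.opn v fun g _ u m => ?_⟩
  · rw [LinearMap.pi_apply]
    split_ifs with e
    · obtain ⟨l, hl, P, ov, e⟩ := e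
      obtain ⟨t, k1⟩ := k j l hl P ov e
      intro g hg
      have m : Inert P (g * τ j * g⁻¹) := by
        have := GW.Pl.inert_conj t g
        rwa [show g • P = P from Sum.inl.inj (by
          have : g • x j = x j := hg.2
          rwa [e] at this)] at this
      have e1 := (a2 g _ ⟨trivial, l, hl, P, ov, t⟩).symm.trans (ad j l hl P ov e _ m)
      have e2 := ka_conj (Nat.cast_ne_zero.2 ov.1.ne_zero) g
        ((tam pp l P ov fun c => hl (c ▸ h2)).1 _ t) (map_natCast _ l)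
      rw [map_natCast, k1, mul_one, ← om_oz] at e2
      exact e2 ▸ e1
    · rfl
  · obtain ⟨m1, l, hl, P, ov, m2⟩ := id m
    rw [a1 g u m, _root_.add_eq_left]
    by_cases e : l ∈ T'
    · obtain ⟨j, a, -, e⟩ := hx.ex _ (mem_ab_fp.2 ⟨l, e, ov⟩)
      have e1 : x j = fp (a⁻¹ • P) := by rw [← smul_fp, e, inv_smul_smul]
      have o1 := GW.ov_smul ov a⁻¹
      have e2 : c (τ j) - c 1 = 0 := by
        have := congrFun s0 j
        rwa [LinearMap.pi_apply, if_pos ⟨l, hl, _, o1, e1⟩] at this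
      have e3 := (a2 _ u m).symm.trans (ad j l hl _ o1 e1 _ (GW.Pl.inert_conj m2 _))
      rw [e2, smul_zero] at e3
      rw [← r.inv (g := a) trivial (c u - c 1), e3, map_zero, map_zero]
    · rw [← one_mul u, v 1 trivial u m1 (hV.sub ⟨m1, l, e, P, ov, m2⟩), sub_self, map_zero]

/-- enlarging the set of primes -/
theorem enl1 [Fintype ι] (h2 : pp ∈ T) (r : Rp (Iu ⊤ T) ⊤ ρ) (hx : Reps (G := GQ) ⊤ (Ab T') x) :
    rq (Z2 (Iu ⊤ T) ⊤ ρ ⊓ B2 (Iu ⊤ T') ⊤ ρ) (B2 (Iu ⊤ T) ⊤ ρ) + rk (Z1 (Iu ⊤ T') ⊤ ρ) ≤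
      ∑ j, rk (if Ou T (x j) then H0 (Dv ⊤ x j) ρ (om pp F2) else ⊥) + rk (Z1 (Iu ⊤ T) ⊤ ρ) := by
  obtain ⟨s, hs⟩ := ex_res h2 r hx
  have zz : ∀ c ∈ Z1 (Iu ⊤ T') ⊤ ρ, d1 ρ c ∈ C2 F2 N (Iu ⊤ T) ⊤ := fun c hc =>
    ⟨⊤, Lv.top _, fun g hg h hh w hw _ => by
      rw [d1_z1 hc (mul_mem hg hw) hh, d1_z1 hc hg (mul_mem hh hw), d1_z1 hc hg hh]
      exact ⟨rfl, rfl⟩⟩
  let Y := C1 F2 N (Iu ⊤ T') ⊤ ⊓ (C2 F2 N (Iu ⊤ T) ⊤).comap (d1 ρ)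
  have zy : Z1 (Iu ⊤ T') ⊤ ρ ≤ Y := fun c hc => ⟨Z1.c1 hc, zz c hc⟩
  have e1 : rq (Z2 (Iu ⊤ T) ⊤ ρ ⊓ B2 (Iu ⊤ T') ⊤ ρ) (B2 (Iu ⊤ T) ⊤ ρ) ≤
      rq (Y.map s) ((Z1 (Iu ⊤ T') ⊤ ρ).map s) := by
    refine le_trans (rq_sub ?_) (rq_le2 (d1 ρ) s Y ?_)
    · rintro z ⟨hz, c, hc, h⟩
      exact ⟨d1 ρ c, ⟨c, ⟨hc, hz.2.imp fun W hW => ⟨hW.1, fun g hg j hj w hw m => by
        rw [← h _ (mul_mem hg hw) j hj, ← h g hg _ (mul_mem hj hw), ← h g hg j hj]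
        exact hW.2 g hg j hj w hw m⟩⟩, rfl⟩, b2_of_zero
          fun g hg j hj => sub_eq_zero.2 (h g hg j hj)⟩
    · rintro c hc ⟨c', h', e⟩
      have m := sub_mem hc (zy h')
      exact ⟨c - c', (hs _ m.1 m.2).2 (by rw [map_sub, e, sub_self]), fun g hg j hj => by
        rw [map_sub, Pi.sub_apply, Pi.sub_apply, d1_z1 h' hg hj, sub_zero]⟩
  have e2 := rq_add (Y.map s) ((Z1 (Iu ⊤ T') ⊤ ρ).map s)
  rw [inf_eq_right.2 (Submodule.map_mono zy)] at e2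
  rw [← rk_map s (Z1 (Iu ⊤ T') ⊤ ρ), ← add_assoc, ← rk_pi2]
  refine add_le_add (((add_le_add_left e1 _).trans_eq e2).trans (Submodule.rank_mono ?_))
    (Submodule.rank_mono fun c ⟨hc, h0⟩ => ⟨hc.1, hc.2.1, ((hs c (Z1.c1 hc) (zz c hc)).2 h0).imp
      fun W hW => ⟨hW.1, fun w hw m => ?_⟩⟩)
  · rintro _ ⟨c, hc, rfl⟩ j _
    exact (hs c hc.1 hc.2).1 j
  · rw [← one_mul w, hW.2 1 (one_mem _) w hw m, Z1.one hc r.one]

/-- the weight of a place -/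
def wt (y : Plc) : ℕ := if y ∈ Ab {0} then 0 else if y ∈ Ab {pp} then 2 else 1

theorem wt_ip (w : InfinitePlace Qb) : wt (ip w) = 0 := by
  rw [wt, if_pos (mem_ab_ip.2 (Set.mem_singleton 0))]

theorem wt_fp {l : ℕ} {P : Ideal (𝓞 Qb)} (h : Ov l P) : wt (fp P) = if l = pp then 2 else 1 := by
  rw [wt, if_neg fun m => by
    obtain ⟨_, rfl, a⟩ := mem_ab_fp.1 m
    exact Nat.not_prime_zero a.1]
  refine if_congr ⟨fun m => ?_, fun m => mem_ab_fp.2 ⟨pp, rfl, m ▸ h⟩⟩ rfl rfl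
  obtain ⟨_, rfl, a⟩ := mem_ab_fp.1 m
  exact GW.Pl.ov_uniq h a

theorem wt_sum [Fintype ι] (hx : Reps (G := GQ) ⊤ (Ab T) x) (h0 : 0 ∈ T) (hp : pp ∈ T) :
    ∑ j, wt (x j) = Fintype.card ι := by
  have a := deg ⊤ _ ι x 0 isOpen_univ hx h0 (.inl rfl)
  have b := deg ⊤ _ ι x pp isOpen_univ hx hp (.inr pp_prime)
  simp only [Subgroup.relIndex_top_left] at a b
  refine add_right_cancel (b := (⊤ : Subgroup GQ).index) ?_
  conv_lhs => rw [← a]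
  rw [← b, Fintype.card, Finset.card_eq_sum_ones, ← Finset.sum_add_distrib,
    ← Finset.sum_add_distrib]
  refine Finset.sum_congr rfl fun j _ => ?_
  rw [wt]
  split_ifs with c d
  · obtain ⟨_, rfl, Q, o, -⟩ | ⟨-, w, e⟩ := c
    · exact absurd o.1 Nat.not_prime_zero
    · exact absurd (mem_ab_ip.1 (e ▸ d)).symm pp_ne
  all_goals rfl

/-- the invariants at the places without condition -/
theorem cnt_rel {κ : Type} {y : κ → Plc} [Fintype ι] {e : κ → ι} (c2 : finrank F2 N ≤ 2)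
    (r : Rp (Iu ⊤ T) ⊤ ρ) (ok : Ok pp T' ⊤ (Uk r) ρ) (tt : T ⊆ T') (hx : Reps (G := GQ) ⊤ (Ab T') x)
    (xe : ∀ a, x (e a) = y a) (cx : ∀ j w, x j = ip w → j ∈ Set.range e)
    (rel : Hm ⊤ ρ (om pp F2) = ⊥ ∨ ∃ l ∈ T, l ≠ pp ∧ ∃ Q, Ov l Q ∧ (∀ g ∈ dec Q, ρ g = 1) ∧
      ∀ i, ∀ g : GQ, fp Q ≠ g • y i) :
    ∃ a : ι → Cardinal, (∀ j, j ∈ Set.range e ∨ Ou T (x j) → a j = 0) ∧
      (∀ j ∉ Set.range e, a j + wt (x j) * Module.rank F2 N ≤ rk (Z1 ∅ (Dv ⊤ x j) ρ)) ∧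
      sh (Iu ⊤ T) ⊤ (fun i => ⊤ ⊓ St (y i)) ρ + rk (Hm ⊤ ρ (om pp F2)) ≤
        ∑ j, a j + rq (Sh (Iu ⊤ T) ⊤ (Dv ⊤ x) ρ) (B2 (Iu ⊤ T) ⊤ ρ) := by
  have fN := ok.fin
  rw [sh]
  set Z := Sh (Iu ⊤ T) ⊤ (fun i => ⊤ ⊓ St (y i)) ρ
  have u1 : ∀ z ∈ Z, ∀ l ∉ T, ∀ Q, Ov l Q → z ∈ B2 ∅ (⊤ ⊓ dec Q) ρ := fun z hz l hl Q o =>
    ur r hz.1 o fun i hi => ⟨trivial, l, hl, Q, o, hi⟩
  have a0 : ∀ j, j ∈ Set.range e ∨ Ou T (x j) → rq Z (B2 ∅ (Dv ⊤ x j) ρ) = 0 := fun j h =>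
    rq_eq_zero.2 fun z hz => by
      obtain ⟨b, rfl⟩ | ⟨l, hl, Q, o, c⟩ := h
      · rw [Dv, xe]
        exact (Submodule.mem_iInf _).1 hz.2 b
      · exact dv_fp c ▸ u1 z hz l hl Q o
  have a1 : ∀ j ∉ Set.range e, rq Z (B2 ∅ (Dv ⊤ x j) ρ) + wt (x j) * Module.rank F2 N ≤
      rk (Z1 ∅ (Dv ⊤ x j) ρ) := fun j hj => by
    obtain ⟨l, -, Q, o, c⟩ | ⟨-, w, c⟩ := Rps.self hx j
    · rw [dv_fp c, c, wt_fp o]
      exact le_trans (add_le_add_left (rq_mono (Z := Z) fun z hz =>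
        Z2.mono hz.1 (Set.empty_subset _) (le_top (a := ⊤ ⊓ dec Q))) _) (eu pp_ne_two c2 r ok o)
    · exact absurd (cx j w c) hj
  have bc : ∀ j, B2 (Iu ⊤ T) ⊤ ρ ≤ B2 ∅ (Dv ⊤ x j) ρ := fun j z hz =>
    B2.mono hz (Set.empty_subset _) le_top
  by_cases c : Hm ⊤ ρ (om pp F2) = ⊥
  · refine ⟨_, a0, a1, ?_⟩
    rw [c, rk, rank_bot, add_zero]
    refine (rq_fam Z _ _ bc Finset.univ).trans (add_le_add_right (rq_mono ?_) _)
    exact fun z hz => ⟨hz.1.1, (Submodule.mem_iInf _).2 fun j => (Submodule.mem_iInf _).1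
      ((Submodule.mem_iInf _).1 hz.2 j) (Finset.mem_univ j)⟩
  obtain ⟨l, hl, l2, Q₀, o, qu, nq⟩ := rel.resolve_left c
  obtain ⟨φ₀, p1, p2⟩ := Submodule.exists_mem_ne_zero_of_ne_bot c
  obtain ⟨n, p2⟩ := DFunLike.ne_iff.1 p2
  replace qu : dec Q₀ ≤ Uk r := fun g m => ⟨qu g m, (om_eq_one F2).1 (by
    have := p1 g trivial n
    rw [qu g m] at this
    exact (mul_left_eq_self₀.1 this.symm).resolve_right p2)⟩
  obtain ⟨j, b, -, c⟩ := hx.ex _ (mem_ab_fp.2 ⟨l, tt hl, o⟩)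
  have c1 : x j = fp (b⁻¹ • Q₀) := by rw [← smul_fp, c, inv_smul_smul]
  have o1 := GW.ov_smul o b⁻¹
  have q1 : dec (b⁻¹ • Q₀) ≤ Uk r := fun u hu => by
    rw [← st_fp, ← c1] at hu
    have := ((st_cj (Γ := ⊤) (x j) (g := b) trivial u).1 ⟨trivial, hu⟩).2
    rw [← c] at this
    simpa [mul_assoc] using (uk_nz (A := ⊤) r).conj' (g := b) trivial (qu ((st_fp Q₀).le this))
  have rj : ¬ (j ∈ Set.range e ∨ Ou T (x j)) := by
    rintro (⟨u, rfl⟩ | ⟨l', hl', Q, o', c'⟩)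
    · exact nq u b (xe u ▸ c)
    · obtain rfl : b⁻¹ • Q₀ = Q := Sum.inl.inj (c1.symm.trans c')
      exact hl' (GW.Pl.ov_uniq o1 o' ▸ hl)
  generalize b⁻¹ • Q₀ = Q at c1 o1 q1
  obtain ⟨f, -, f2, f3⟩ := inv_ex pp_ne_two fN r o1 (by
    rw [Subgroup.relIndex_eq_one.2 (inf_le_right.trans q1)]; exact pp_prime.not_dvd_one)
  refine ⟨Function.update (fun j => rq Z (B2 ∅ (Dv ⊤ x j) ρ)) j (Module.rank F2 N),
    fun i hi => ?_, fun i hi => ?_, ?_⟩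
  · rw [Function.update_of_ne fun w : i = j => rj (w ▸ hi), a0 i hi]
  · obtain rfl | w := eq_or_ne i j
    · rw [Function.update_self, dv_fp c1, c1, wt_fp o1]
      convert ll pp_ne_two ok o1
      · rw [show Hm (⊤ ⊓ dec Q) ρ (om pp F2) = ⊤ from eq_top_iff.2 fun φ _ g hg n => by
          rw [(q1 hg.2).1, (om_eq_one F2).2 (q1 hg.2).2, one_mul]; rfl, rk, rank_top,
          ← finrank_eq_rank F2 (Dual F2 N), Subspace.dual_finrank_eq, finrank_eq_rank]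
    · rw [Function.update_of_ne w]
      exact a1 i hi
  rw [Finset.sum_update_of_mem (Finset.mem_univ j)]
  refine (add_le_add_left (rq_fam Z _ _ bc (Finset.univ \ {j})) _).trans ?_
  set Z' := Z ⊓ ⨅ i ∈ Finset.univ \ {j}, B2 ∅ (Dv ⊤ x i) ρ
  have z1 : ∀ z ∈ Z', ∀ i ≠ j, z ∈ B2 ∅ (Dv ⊤ x i) ρ := fun z hz i w =>
    (Submodule.mem_iInf _).1 ((Submodule.mem_iInf _).1 hz.2 i) (by simpa using w)
  have k1 := rq_split LinearMap.id Z' (B' := B2 ∅ (Dv ⊤ x j) ρ) (bc j)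
  rw [Submodule.map_id, Submodule.comap_id] at k1
  have k2 : rq Z' (B2 ∅ (Dv ⊤ x j) ρ) ≤ rq (Hm ⊤ ρ (om pp F2)).dualCoannihilator ⊥ := by
    refine rq_le f (fun z hz => (Submodule.mem_dualCoannihilator _).2 fun φ hφ => f3 z φ ?_)
      fun z hz h => dv_fp c1 ▸ f2 z (Z2.mono hz.1.1 (Set.empty_subset _) le_top) h
    refine B2.mono (one1 pp_ne_two G2.one2 o1 l2 (fun g m => (q1 m).2) (Z2.amap (Z2.mono hz.1.1
      (Set.empty_subset _) le_rfl) φ.toAddMonoidHom hφ) fun v hv ny => B2.amap (ρ := ρ) ?_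
        φ.toAddMonoidHom fun g _ => hφ g trivial) subset_rfl inf_le_right
    by_cases yT : v ∈ Ab T'
    · obtain ⟨i, u, hu, rfl⟩ := hx.ex v yT
      exact loc2 r hz.1.1 hu (z1 z hz i fun w => ny u (by rw [w, c1]))
    · obtain ⟨l', -, Q', o', rfl⟩ | ⟨-, w, rfl⟩ := hv
      · rw [st_fp]
        exact u1 z hz.1 l' (fun a => yT (mem_ab_fp.2 ⟨l', tt a, o'⟩)) Q' o'
      · exact absurd (mem_ab_ip.2 ok.lg.h0) yT
  have k3 : rq (Hm ⊤ ρ (om pp F2)).dualCoannihilator ⊥ + rk (Hm ⊤ ρ (om pp F2)) =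
      Module.rank F2 N := by
    rw [rq_bot, rk, rk, ← finrank_eq_rank, ← finrank_eq_rank, ← finrank_eq_rank, ← Nat.cast_add,
      add_comm, Subspace.finrank_add_finrank_dualCoannihilator_eq]
  have k4 : rq (Z' ⊓ B2 ∅ (Dv ⊤ x j) ρ) (B2 (Iu ⊤ T) ⊤ ρ) ≤ _ := rq_mono
    (Z' := Sh (Iu ⊤ T) ⊤ (Dv ⊤ x) ρ) fun z hz => ⟨hz.1.1.1, (Submodule.mem_iInf _).2 fun i =>
      (eq_or_ne i j).elim (fun w => w ▸ hz.2) (z1 z hz.1 i)⟩
  rw [← k1, ← k3]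
  exact (add_le_add_left (add_le_add_right (add_le_add k2 k4) _) _).trans_eq (by ring)

/-- **the count** -/
theorem core {κ : Type} [Fintype κ] {y : κ → Plc} (h2 : pp ∈ T) (pr : ∀ l ∈ T, l.Prime)
    (f : Module.Finite F2 N) (c2 : finrank F2 N ≤ 2) (r : Rp (Iu ⊤ T) ⊤ ρ)
    (ov : ∀ i, y i ∈ Ab (insert 0 T))
    (un : ∀ i j, ∀ g : GQ, y j = g • y i → i = j) (fr : ∃ i w, y i = ip w)
    (rel : Hm ⊤ ρ (om pp F2) = ⊥ ∨ ∃ l ∈ T, l ≠ pp ∧ ∃ Q, Ov l Q ∧ (∀ g ∈ dec Q, ρ g = 1) ∧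
      ∀ i, ∀ g : GQ, fp Q ≠ g • y i) :
    sh (Iu ⊤ T) ⊤ (fun i => ⊤ ⊓ St (y i)) ρ + ∑ i, rk (Z1 ∅ (⊤ ⊓ St (y i)) ρ) +
      Module.rank F2 N ≤ rk (Z1 (Iu ⊤ T) ⊤ ρ) + (∑ i, wt (y i) : ℕ) * Module.rank F2 N := by
  obtain ⟨T', tt, ok⟩ := ex_ok c2 r T (fun l hl => .inr (pr l hl)) fun g h => ⟨trivial, h⟩
  have L := ok.lg
  have eI : Iu ⊤ T' = In T' := Set.ext fun g => ⟨fun h => h.2, fun h => ⟨trivial, h⟩⟩
  have sI : In T' ⊆ Iu ⊤ T := eI ▸ iu_mono tt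
  obtain ⟨ι, _, x₀, hx₀⟩ := plc ⊤ T' isOpen_univ
  obtain ⟨x, e, hx, ie, xe⟩ := adapt hx₀ y (fun a => Plc.ab_mono
    (Set.insert_subset L.h0 (Finset.coe_subset.2 tt)) (ov a)) fun a b g _ c => un a b g c
  obtain ⟨fz, -, g⟩ := G2.chi2 F2 N ⊤ _ T' ι x ρ ok hx
  replace g := (ar_cone (cone GQ _ N _ ⊤ ι _ ρ ok.rp (Dv_le ⊤ x)) fz (fin_cr f _) (fin_tn f fz)).1 g
  have en := enl1 h2 r hx
  rw [eI] at en
  have k2 := (rq_split LinearMap.id (Sh (Iu ⊤ T) ⊤ (Dv ⊤ x) ρ) (B := B2 (Iu ⊤ T) ⊤ ρ)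
    (B' := B2 (In T') ⊤ ρ) fun z hz => B2.mono hz sI le_rfl).ge.trans (add_le_add
      (rq_mono (Z' := Sh (In T') ⊤ (Dv ⊤ x) ρ) fun _ ⟨z, hz, c⟩ =>
        c ▸ ⟨Z2.mono hz.1 sI le_rfl, hz.2⟩)
      (rq_mono (Z' := Z2 (Iu ⊤ T) ⊤ ρ ⊓ B2 (In T') ⊤ ρ) fun z hz => ⟨hz.1.1, hz.2⟩))
  obtain ⟨a, a0, a1, k3⟩ := cnt_rel c2 r ok tt hx xe (fun j w c => by
    obtain ⟨i, w', c'⟩ := fr
    obtain ⟨a, ha⟩ := Plc.ab_trans (l := 0) (y := ip w') (y' := ip w) (mem_ab_ip.2 rfl)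
      (mem_ab_ip.2 rfl)
    exact ⟨i, hx.un _ _ a trivial (by rw [c, xe, c', ha])⟩) rel
  have k4 : ∑ j, a j + ∑ j, rk (if Ou T (x j) then H0 (Dv ⊤ x j) ρ (om pp F2) else ⊥) +
      Fintype.card ι * Module.rank F2 N + ∑ i, rk (Z1 ∅ (⊤ ⊓ St (y i)) ρ) ≤
      ∑ j, rk (Z1 ∅ (Dv ⊤ x j) ρ) + (∑ i, wt (y i) : ℕ) * Module.rank F2 N := by
    have s : ∀ F : Plc → Cardinal, ∑ i, F (y i) =
        ∑ j, if j ∈ Finset.univ.image e then F (x j) else 0 := fun F => by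
      rw [Finset.sum_ite_mem, Finset.univ_inter, Finset.sum_image ie.injOn]
      simp only [xe]
    rw [← wt_sum hx L.h0 L.hp, Nat.cast_sum, Nat.cast_sum, Finset.sum_mul, Finset.sum_mul,
      s fun v => rk (Z1 ∅ (⊤ ⊓ St v) ρ), s fun v => wt v * Module.rank F2 N]
    simp only [← Finset.sum_add_distrib]
    refine Finset.sum_le_sum fun j _ => ?_
    by_cases m : j ∈ Set.range e
    · obtain ⟨i, rfl⟩ := id m
      rw [a0 _ (.inl m), if_neg fun ⟨l, hl, Q, o, c⟩ => by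
          obtain ⟨l', m, o'⟩ := mem_ab_fp.1 ((xe i).symm.trans c ▸ ov i)
          obtain rfl := GW.Pl.ov_uniq o o'
          exact m.elim (fun m => Nat.not_prime_zero (m ▸ o.1)) hl,
        if_pos (by simp), if_pos (by simp), rk, rank_bot, zero_add, zero_add, add_comm]
      rfl
    rw [if_neg (c := j ∈ _) (by simpa using m), if_neg (c := j ∈ _) (by simpa using m), add_zero,
      add_zero]
    split_ifs with c
    · rw [a0 j (.inr c), zero_add]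
      obtain ⟨l, hl, Q, o, c⟩ := c
      rw [dv_fp c, c, wt_fp o]
      refine (add_le_add_left (h0_le f r o (fun c => hl (c ▸ h2))
        fun i hi => ⟨trivial, l, hl, Q, o, hi⟩) _).trans ?_
      convert ll pp_ne_two ok o
    · rw [rk, rank_bot, add_zero]
      exact a1 j m
  refine can (add_lt_aleph0 (add_lt_aleph0 (fin_hm (A := ⊤) (ρ := ρ) (ω := om pp F2) f) fz)
    (fin_cr f (Fintype.card ι))) ?_
  replace k3 := k3.trans (add_le_add_right k2 _)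
  rw [sh] at g
  generalize sh (Iu ⊤ T) ⊤ (fun i => ⊤ ⊓ St (y i)) ρ = u, rk (Hm ⊤ ρ (om pp F2)) = h,
    ∑ j, rk (if Ou T (x j) then H0 (Dv ⊤ x j) ρ (om pp F2) else ⊥) = b, ∑ j, a j = a,
    rq (Z2 (Iu ⊤ T) ⊤ ρ ⊓ B2 (In T') ⊤ ρ) (B2 (Iu ⊤ T) ⊤ ρ) = q, rk (Z1 (In T') ⊤ ρ) = z',
    rk (Z1 (Iu ⊤ T) ⊤ ρ) = z, ∑ a, rk (Z1 ∅ (⊤ ⊓ St (y a)) ρ) = t,
    rq (Sh (In T') ⊤ (Dv ⊤ x) ρ) (B2 (In T') ⊤ ρ) = s, ∑ j, rk (Z1 ∅ (Dv ⊤ x j) ρ) = v,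
    ((∑ i, wt (y i) : ℕ) : Cardinal) * Module.rank F2 N = m,
    (Fintype.card ι : Cardinal) * Module.rank F2 N = c at *
  generalize Module.rank F2 N = n at *
  calc _ = u + h + (z' + c + t + n) := by ring
    _ ≤ _ := add_le_add_left k3 _
    _ = q + z' + (a + s + c + t + n) := by ring
    _ ≤ _ := add_le_add_left en _
    _ = a + b + c + t + (s + z + n) := by ring
    _ ≤ _ := add_le_add_left k4 _
    _ = s + v + n + (z + m) := by ring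
    _ ≤ _ := add_le_add_left g _
    _ = _ := by ring

/-- finiteness, with a bound when primes are added -/
theorem fin_z (o : IsOpen (Γ : Set GQ)) (pr : ∀ l ∈ T, l.Prime)
    (f : Module.Finite F2 N) (r : Rp (Iu Γ T) Γ ρ) : rk (Z1 (Iu Γ T) Γ ρ) < ℵ₀ := by
  obtain ⟨W, hW, w⟩ := r.lv
  have oU : IsOpen ((Γ ⊓ (W ⊓ Gz pp) : Subgroup GQ) : Set GQ) := o.inter (hW.opn.inter Gz_open)
  obtain ⟨T', tt, -, L, -⟩ := lg pp Γ (Γ ⊓ (W ⊓ Gz pp)) _ T inf_le_left (fun _ m => m.2.2)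
    (fun g hg u hu => ⟨Γ.mul_mem (Γ.mul_mem hg hu.1) (Γ.inv_mem hg), hW.nrm.conj_mem u hu.2.1 g,
      Gz_normal.conj_mem u hu.2.2 g⟩) oU oU fun l hl => .inr (pr l hl)
  have sI : In T' ⊆ Iu Γ T := fun g h => iu_mono tt ⟨(le_in L.lv h).1, h⟩
  exact (Submodule.rank_mono fun c hc => Z1.mono hc sI).trans_lt
    (fin_all G2.chi02 L inf_le_left f (r.mono sI le_rfl) fun u hu => w u hu.1 hu.2.1).1

theorem bnd_z (o : IsOpen (Γ : Set GQ)) (i : Γ = ⊤) (h2 : pp ∈ T)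
    (pr : ∀ l ∈ T', l.Prime) (r : Rp (Iu Γ T) Γ ρ) : rk (Z1 (Iu Γ (T ∪ T' : Finset ℕ)) Γ ρ) ≤
      (T'.card : ℕ) * Module.rank F2 N + rk (Z1 (Iu Γ T) Γ ρ) := by
  subst i
  obtain ⟨ι, _, x, hx⟩ := plc ⊤ (T ∪ T') o
  refine ((self_le_add_left _ _).trans (enl1 h2 r hx)).trans (add_le_add_left ?_ _)
  have u : ∑ j, (if Ou T (x j) then 1 else 0) ≤ T'.card := by
    rw [show T'.card = ∑ l ∈ T', (⊤ : Subgroup GQ).index by simp, ← Finset.sum_congr rfl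
      fun l hl => deg ⊤ _ ι x l o hx (Finset.mem_coe.2 (Finset.mem_union_right T hl))
        (.inr (pr l hl)), Finset.sum_comm]
    refine Finset.sum_le_sum fun j _ => ?_
    split_ifs with c
    · obtain ⟨l, hl, Q, a, c⟩ := c
      obtain ⟨l', m, a'⟩ := mem_ab_fp.1 (c ▸ Rps.self hx j)
      obtain rfl := GW.Pl.ov_uniq a a'
      refine le_trans ?_ (Finset.single_le_sum (fun _ _ => Nat.zero_le _)
        ((Finset.mem_union.1 m).resolve_left hl))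
      rw [if_pos (c ▸ mem_ab_fp.2 ⟨l, rfl, a⟩)]
      exact Nat.pos_of_ne_zero (le_of_open o _).relIndex
    · exact Nat.zero_le _
  refine le_trans ?_ (mul_le_mul_left (Nat.cast_le.2 u) _)
  rw [Nat.cast_sum, Finset.sum_mul]
  refine Finset.sum_le_sum fun j _ => ?_
  split_ifs
  · rw [Nat.cast_one, one_mul]
    exact Submodule.rank_le _
  · simp

end Vale.Agent.P014U.Pq
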