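import Vale.Agent.P014T.Pq.All
import Vale.Agent.P014U.Pq.Core

/-!
# P014U, block PRESQ: framed cocycles with conditions on arbitrary subgroups, representability
-/

set_option linter.all false

noncomputable section

namespace Vale.Agent.P014U.Pq

open NumberField Module Cardinal
open Vale.Agent.P022 Vale.Agent.P022K Vale.Agent.P022K.G2
open Vale.Agent.P022K.G2.Hb Vale.Agent.P022K.G2.Cx
open X4F.Pr (F2 Iu ex_lev ac ac_add ac_smul ac_zero ac_map ac_lin ac_sub add_ac
  zero_ac mul_ac one_ac mp Zk Bk min_gen ex_quot fin_char sep_char fin_of)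
open scoped Pointwise Classical

export Vale.Agent.P014T.Pq (Zs Gd Zn zs_map zn_map zn_of zn_inj zs_lev Zq zq_iff)

variable [Pp]

section

variable {R : Type} [CommRing R] {n μ ν κ : Type} [Fintype n] [Fintype μ] [Fintype ν]
  {M : Type} [AddCommGroup M] [Module R M]

variable [DecidableEq n]

/-- `(Q, u, w)` is a minimal presentation with its universal element -/
structure Pres (π : R →+* F2) (Γ : Subgroup GQ) (T : Finset ℕ) (a : GQ → Matrix n n R)
    (P : κ → Subgroup GQ) (b : κ → GQ → Matrix n μ R) (N : Matrix ν μ R) {g r : ℕ}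
    (Q : Matrix (Fin r) (Fin g) R) (u : GQ → Matrix n (Fin g) R) (w : Matrix μ (Fin g) R) :
    Prop where
  min : Q.map π = 0
  bij : ∀ (M : Type) [AddCommGroup M] [Module R M],
    Set.BijOn (fun y : Fin g → M => (fun γ => ac (u γ) y, ac w y))
      {y | ac Q y = 0 ∧ ac (N * w) y = 0} {x | x ∈ Zs M Γ T a P b ∧ ac N x.2 = 0}
  crd : Nat.card (Zs F2 Γ T (fun γ => (a γ).map π) P fun i γ => (b i γ).map π) = pp ^ g

end

section

variable {R R' : Type} [CommRing R] [CommRing R'] {σ : R →+* R'} {n μ ν κ : Type} [Fintype n]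
  [Fintype μ] [Fintype ν] {M M' : Type} [AddCommGroup M] [Module R M] [AddCommGroup M']
  {Γ : Subgroup GQ} {T : Finset ℕ} {a : GQ → Matrix n n R} {P : κ → Subgroup GQ}
  {b : κ → GQ → Matrix n μ R} {N : Matrix ν μ R}

variable [IsLocalRing R] [Finite R] (π : R →+* F2)

theorem zn_fin (hk : Finite (Zs F2 Γ T (fun g => (a g).map π) P fun i g => (b i g).map π))
    (c : ℕ) : ∀ (M : Type) [AddCommGroup M] [Module R M] [Finite M], Nat.card M = c →
      (Zn M Γ T a P b N : Set ((GQ → n → M) × (μ → M))).Finite := by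
  induction c using Nat.strong_induction_on with | _ c ih => ?_
  intro M _ _ _ hc
  obtain h | h := subsingleton_or_nontrivial M
  · exact Set.toFinite _
  obtain ⟨f, hf⟩ := ex_quot π (M := M)
  have lt : Nat.card (LinearMap.ker f) < c := hc ▸ Finite.card_subtype_lt
    (x := (DFunLike.ne_iff.1 hf).choose) (DFunLike.ne_iff.1 hf).choose_spec
  refine Set.Finite.of_finite_fibers (mp f) ((Set.toFinite (Zs F2 Γ T (fun g => (a g).map π) P
    fun i g => (b i g).map π : Set _)).subset ?_) ?_
  · rintro _ ⟨x, hx, rfl⟩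
    exact zs_map f hx.1
  · rintro _ ⟨x, hx, rfl⟩
    refine ((ih _ lt _ rfl).image fun y => x + mp (LinearMap.ker f).subtype y).subset ?_
    rintro y ⟨hy, e⟩
    refine ⟨(fun g i => ⟨y.1 g i - x.1 g i, ?_⟩, fun j => ⟨y.2 j - x.2 j, ?_⟩),
      zn_inj (LinearMap.ker f).subtype Subtype.val_injective (sub_mem hy hx), add_sub_cancel x y⟩
    · exact (map_sub f _ _).trans (sub_eq_zero.2 (congrFun (congrFun (congrArg Prod.fst e) g) i))
    · exact (map_sub f _ _).trans (sub_eq_zero.2 (congrFun (congrArg Prod.snd e) j))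

/-- **representability** -/
theorem univ (hk : Finite (Zs F2 Γ T (fun g => (a g).map π) P fun i g => (b i g).map π)) :
    ∃ (X : Type) (_ : AddCommGroup X) (_ : Module R X) (_ : Finite X)
      (x₀ : (GQ → n → X) × (μ → X)), x₀ ∈ Zn X Γ T a P b N ∧
      ∀ (M : Type) [AddCommGroup M] [Module R M], (∀ x ∈ Zn M Γ T a P b N,
        ∃ ψ : X →ₗ[R] M, mp ψ x₀ = x) ∧ ∀ ψ ψ' : X →ₗ[R] M, mp ψ x₀ = mp ψ' x₀ → ψ = ψ' := by
  have := fin_char (R := R)
  have : Finite (Zn (CharacterModule R) Γ T a P b N) := zn_fin π hk _ _ rfl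
  let v : ∀ {M : Type}, (GQ → n → M) × (μ → M) → (GQ × n) ⊕ μ → M := fun x =>
    Sum.elim (fun p => x.1 p.1 p.2) x.2
  let A : ((GQ × n) ⊕ μ →₀ R) →ₗ[R] Zn (CharacterModule R) Γ T a P b N → CharacterModule R :=
    .pi fun z => Finsupp.linearCombination R (v z.1)
  let x₀ : (GQ → n → _ ⧸ LinearMap.ker A) × (μ → _ ⧸ LinearMap.ker A) :=
    (fun g i => (LinearMap.ker A).mkQ (Finsupp.single (.inl (g, i)) 1),
      fun j => (LinearMap.ker A).mkQ (Finsupp.single (.inr j) 1))
  have e : ∀ z : Zn (CharacterModule R) Γ T a P b N,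
      mp (LinearMap.proj (R := R) z ∘ₗ A.ker.liftQ A le_rfl) x₀ = z.1 := fun z =>
    Prod.ext (funext fun g => funext fun i => by simp [mp, x₀, A, v])
      (funext fun j => by simp [mp, x₀, A, v])
  have i : Function.Injective (A.ker.liftQ A le_rfl) :=
    LinearMap.ker_eq_bot.1 (Submodule.ker_liftQ_eq_bot _ _ _ le_rfl)
  refine ⟨_ ⧸ LinearMap.ker A, inferInstance, inferInstance, Finite.of_injective _ i, x₀,
    zn_of (fun z => LinearMap.proj z ∘ₗ A.ker.liftQ A le_rfl)
      (fun m h => i ((funext h).trans (map_zero _).symm)) (fun z => (e z).symm ▸ z.2) ?_,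
    fun M _ _ => ⟨fun x hx => ⟨A.ker.liftQ (Finsupp.linearCombination R (v x)) fun c hc =>
      sep_char (R := R) _ fun f => ?_, Prod.ext (funext fun g => funext fun i =>
        (Finsupp.linearCombination_single R 1 _).trans (one_smul _ _)) (funext fun j =>
        (Finsupp.linearCombination_single R 1 _).trans (one_smul _ _))⟩, fun ψ ψ' h => Submodule.linearMap_qext _
          (Finsupp.lhom_ext' fun j => LinearMap.ext_ring ?_)⟩⟩
  · choose W hW w using fun z : Zn (CharacterModule R) Γ T a P b N => z.2.1.2.2.1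
    exact ⟨⨅ z, W z, by rw [Subgroup.coe_iInf]; exact isOpen_iInter_of_finite hW,
      fun z u m => (e z).symm ▸ w z u (Subgroup.mem_iInf.1 m z)⟩
  · rw [Finsupp.apply_linearCombination]
    refine Eq.trans ?_ (congrFun hc ⟨mp f x, zn_map f hx⟩)
    exact congrArg (fun t => Finsupp.linearCombination R t c) (funext fun j => by cases j <;> rfl)
  · rcases j with ⟨g, i⟩ | j
    exacts [congrFun (congrFun (congrArg Prod.fst h) g) i, congrFun (congrArg Prod.snd h) j]

end

end Vale.Agent.P014U.Pq
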