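import Vale.Agent.P014T.Pq.Pn
import Vale.Agent.P014U.Pq.All

/-!
# P014U, block PRESQ: presentations when the local relations are not minimal
-/

set_option linter.all false

noncomputable section

namespace Vale.Agent.P014U.Pq

open NumberField
open Vale.Agent.P022 Vale.Agent.P022K.G2
open Vale.Agent.P022D.W (dec)
open Vale.Agent.P022E.GW (Ov)
open X4F.Pr (F2 ac ac_add ac_zero zero_ac mul_ac one_ac add_ac unit_of)
open Vale.Agent.P004F.Pn (piv)
open scoped Pointwise Classical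

export Vale.Agent.P014T.Pq (Bj mem_zs)

variable [Pp] {R : Type} [CommRing R] {π : R →+* F2} {n ν κ : Type} [Fintype n] [DecidableEq n]
  [Fintype ν] [Fintype κ] {Γ : Subgroup GQ} {T : Finset ℕ} {a : GQ → Matrix n n R}
  {P : κ → Subgroup GQ}

/-- the number of generators -/
theorem bj_card {μ r : Type} [Fintype μ] {g : ℕ} {b : κ → GQ → Matrix n μ R}
    {N : Matrix ν μ R} {Q : Matrix r (Fin g) R} {u w} (h : Bj Γ T a P b N Q u w) (m : Q.map π = 0)
    (hG : Gd Γ T a) : pp ^ g ≤ Nat.card (Zs F2 Γ T (fun γ => (a γ).map π) P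
      fun i γ => (b i γ).map π) * pp ^ Fintype.card ν := by
  have hk := zs_fin (P := P) (b := fun i g => (b i g).map π) (hG.map π)
  letI : Module R F2 := Module.compHom _ π
  let f : (Fin g → F2) →+ (ν → F2) := .mk' (ac (N * w)) (ac_add _)
  have e (y : f.ker) : ac Q y.1 = 0 ∧ ac (N * w) y.1 = 0 :=
    ⟨(show _ = ac (Q.map π) y.1 from rfl).trans (by rw [m, zero_ac]), y.2⟩
  rw [show pp ^ g = Nat.card (Fin g → F2) by simp, ← AddSubgroup.card_mul_index f.ker,
    AddSubgroup.index_ker]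
  exact Nat.mul_le_mul (Nat.card_le_card_of_injective (fun y => ⟨_, ((h F2).1 (e y)).1⟩)
    fun y y' c => Subtype.ext ((h F2).2.1 (e y) (e y') (congrArg Subtype.val c)))
    ((Nat.card_le_card_of_injective _ Subtype.val_injective).trans_eq (by simp))

variable [IsLocalRing R]

/-- reduction to minimal relations -/
theorem red {s t : ℕ} {X : ∀ (μ : Type) [Fintype μ], (κ → GQ → Matrix n μ R) → Matrix ν μ R → Prop}
    (hX : ∀ (μ μ' : Type) [Fintype μ] [Fintype μ'] b N (A : Matrix μ μ' R), X μ b N →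
      X μ' (fun i γ => b i γ * A) (N * A))
    (H : ∀ (μ : Type) [Fintype μ] b N, X μ b N → N.map π = 0 → ∃ (g r : ℕ)
      (Q : Matrix (Fin r) (Fin g) R) (u : _) (w : _), Q.map π = 0 ∧ Bj Γ T a P b N Q u w ∧
        r + Fintype.card μ + s = g + t) (m : ℕ) :
    ∀ (μ : Type) [Fintype μ] (b : κ → GQ → Matrix n μ R) (N : Matrix ν μ R), X μ b N →
    Fintype.card μ = m → ∃ (g r : ℕ) (Q : Matrix (Fin r) (Fin g) R) (u : _) (w : _), Q.map π = 0 ∧
      Bj Γ T a P b N Q u w ∧ r + Fintype.card μ + s = g + t := by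
  induction m using Nat.strong_induction_on with | _ m ih => ?_
  intro μ _ b N h e
  by_cases c : N.map π = 0
  · exact H μ b N h c
  obtain ⟨i, j, c⟩ : ∃ i j, π (N i j) ≠ 0 := by simpa [← Matrix.ext_iff] using c
  obtain ⟨x, hx⟩ := (unit_of π c).exists_left_inv
  have cd : Fintype.card μ = Fintype.card {k // k ≠ j} + 1 := by
    rw [← Fintype.card_option, Fintype.card_congr (Equiv.optionSubtypeNe j)]
  obtain ⟨A, V, d, d', h1, h2, h3, h4⟩ := piv N hx
  obtain ⟨g, r, Q, u, w, q, hb, e⟩ := ih _ (by omega) _ _ _ (hX μ _ b N A h) rfl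
  refine ⟨g + 1, r, _, _, _, Matrix.ext fun t l => ?_, hb.step h1 h2 h3 h4, by omega⟩
  induction l using Fin.cases
  exacts [map_zero π, congrFun (congrFun q t) _]

/-- **the presentation over the rationals without minimality of the relations `N`** -/
theorem presn [Finite R] {μ : Type} [Fintype μ] {a : GQ → Matrix n n R} {y : κ → Plc}
    {b : κ → GQ → Matrix n μ R} {N : Matrix ν μ R} (c2 : Fintype.card n ≤ 2) (h : Gd ⊤ T a)
    (h2 : pp ∈ T) (ov : ∀ i, y i ∈ Ab (insert 0 T)) (un : ∀ i j, ∀ g : GQ, y j = g • y i → i = j)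
    (fr : ∃ i w, y i = ip w)
    (coc : ∀ i, ∀ g ∈ St (y i), ∀ h ∈ St (y i), ∃ β : Matrix n ν R,
      b i (g * h) = b i g + a g * b i h + β * N)
    (lc : ∀ i, ∃ W : Subgroup GQ, IsOpen (W : Set GQ) ∧ ∀ g ∈ St (y i),
      ∀ w ∈ St (y i), w ∈ W → b i (g * w) = b i g)
    (rel : (∀ v : n → F2, (∀ g, Matrix.vecMul v ((a g).map π) = om pp F2 g • v) → v = 0) ∨
      ∃ l ∈ T, l ≠ pp ∧ ∃ Q, Ov l Q ∧ (∀ g ∈ dec Q, (a g).map π = 1) ∧
        ∀ i, ∀ g : GQ, fp Q ≠ g • y i) :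
    ∃ (g r : ℕ) (Q : Matrix (Fin r) (Fin g) R) (u : GQ → Matrix n (Fin g) R)
      (w : Matrix μ (Fin g) R), Q.map π = 0 ∧ Bj ⊤ T a (fun i => St (y i)) b N Q u w ∧
      pp ^ g ≤ Nat.card (Zs F2 ⊤ T (fun γ => (a γ).map π) (fun i => St (y i))
        fun i γ => (b i γ).map π) * pp ^ Fintype.card ν ∧
      r + Fintype.card μ + Fintype.card n = g + (∑ i, wt (y i)) * Fintype.card n := by
  obtain ⟨g, r, Q, u, w, q, hb, e⟩ := red (π := π) (Γ := ⊤) (T := T) (a := a)
    (P := fun i => St (y i)) (s := Fintype.card n) (t := (∑ i, wt (y i)) * Fintype.card n)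
    (X := fun μ _ b N => (∀ i, ∀ g ∈ St (y i), ∀ h ∈ St (y i), ∃ β : Matrix n ν R,
      b i (g * h) = b i g + a g * b i h + β * N) ∧ ∀ i, ∃ W : Subgroup GQ,
      IsOpen (W : Set GQ) ∧ ∀ g ∈ St (y i), ∀ w ∈ St (y i), w ∈ W → b i (g * w) = b i g)
    (fun _ _ _ _ b N A c => ⟨fun i g hg j hj => (c.1 i g hg j hj).imp fun β e => by
      simp only [e, Matrix.add_mul, Matrix.mul_assoc], fun i => (c.2 i).imp fun W e =>
        ⟨e.1, fun g hg j hj m => congrArg (· * A) (e.2 g hg j hj m)⟩⟩)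
    (fun μ _ b N c m => by
      obtain ⟨g, r, Q, u, w, p, e⟩ := presS c2 h h2 ov un fr
        (fun i g hg j hj => c.1 i g hg.2 j hj.2)
        (fun i => (c.2 i).imp fun W e => ⟨e.1, fun g hg j hj => e.2 g hg.2 j hj.2⟩) m rel
      exact ⟨g, r, Q, u, w, p.min, p.bij, e⟩) _ μ b N ⟨coc, lc⟩ rfl
  exact ⟨g, r, Q, u, w, q, hb, bj_card hb q h, e⟩

end Vale.Agent.P014U.Pq
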