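import Vale.Agent.P014T.Pq.Ext
import Vale.Agent.P014U.Pq.Lev

/-! # P014U, block PRESQ: the universal class, points, and one more prime -/

set_option linter.all false

open NumberField Matrix Submodule Set Sum
open scoped Pointwise Classical

noncomputable section

namespace Vale.Agent.P014U.Pq

open Vale.Agent.P022 Vale.Agent.P022K Vale.Agent.P022K.G2
open Vale.Agent.P027M.S (Inert)
open Vale.Agent.P022.H443 (inP)
open Vale.Agent.P022E.GW (Ov Fb)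
open X4F.Pr (ac zero_ac mul_ac ac_zero one_ac ac_add)
open Vale.Agent.P004F.Pa (up ac_up sum_up ac_mk mk_zero nak)
open Vale.Agent.P004F.Pa.Xl (ev ev_vm ev_ker ex_mat)
open Kq (M2 F4 Gl Pk)

export Vale.Agent.P014T.Pq (ev_up mul_row)

variable [Pp] {R : Type} [CommRing R] {σ ι ι' β : Type} [Fintype σ] [Fintype ι] [Fintype ι']
  {γ : Gl R GQ σ} {τ c : GQ} {T T' : Finset ℕ} {D : β → Subgroup GQ} {q : Ps (σ ⊕ ι)}
  {p : Pk R GQ σ ι} {m : β → Matrix (Fin 2) (Fin p.g) R}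

theorem up_rl {L : Submodule R (Fin p.g → R)} (h : p.Rl γ τ ≤ L) : ac (p.Rm γ τ) (up L) = 0 :=
  funext fun i => (ac_up L _ i).trans ((mk_zero L).2 (h (subset_span (mem_range_self i))))

namespace Lu

variable (h : Lu γ τ T c D q p m)
include h

/-- the universal class -/
theorem un {L : Submodule R (Fin p.g → R)} (hL : p.Rl γ τ ≤ L) :
    (fun g i => L.mkQ (p.u g i), fun b i => L.mkQ (m b i)) ∈ Sf _ T γ.ρ c D := by
  have := (h.bij _).mapsTo (up_rl hL)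
  rwa [show (fun g => ac (p.u g) (up L)) = fun g i => L.mkQ (p.u g i) from
      funext fun g => funext (ac_up L _),
    show (fun b => ac (m b) (up L)) = fun b i => L.mkQ (m b i) from
      funext fun b => funext (ac_up L _)] at this

theorem coc (g g' : GQ) (i : Fin 2) : (p.u (g * g') - p.u g - γ.ρ g * p.u g') i ∈ p.Rl γ τ := by
  have := congrFun ((h.un le_rfl).1.1 g g') i
  rw [Pi.add_apply, ac_mk] at this
  refine (mk_zero _).1 ?_
  show (p.Rl γ τ).mkQ (p.u (g * g') i - p.u g i - γ.ρ g i ᵥ* p.u g') = 0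
  rw [map_sub, map_sub, show (p.Rl γ τ).mkQ (p.u (g * g') i) = _ from this, add_sub_cancel_left,
    sub_self]

theorem lc : ∃ W : Subgroup GQ, IsOpen (W : Set GQ) ∧ ∀ w ∈ W, ∀ i, p.u w i ∈ p.Rl γ τ :=
  (h.un le_rfl).1.2.1.imp fun W e => ⟨e.1, fun w m i => (mk_zero _).1 (congrFun (e.2 w m) i)⟩

theorem unr {g : GQ} (hg : g ∈ In T) (i : Fin 2) : p.u g i ∈ p.Rl γ τ :=
  (mk_zero _).1 (congrFun ((h.un le_rfl).1.2.2.1 g hg) i)

theorem fr (i : Fin 2) : p.u c i ∈ p.Rl γ τ := (mk_zero _).1 (congrFun (h.un le_rfl).1.2.2.2 i)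

theorem st {b : β} {g : GQ} (hg : g ∈ D b) (i : Fin 2) :
    p.u g i - (γ.ρ g - 1) i ᵥ* m b ∈ p.Rl γ τ := by
  have := congrFun ((h.un le_rfl).2 b g hg) i
  rw [ac_mk] at this
  exact (mk_zero _).1 ((map_sub _ _ _).trans (sub_eq_zero.2 this))

/-- right translation by an element on which the universal class vanishes -/
theorem tr {g w : GQ} (hw : ∀ i, p.u w i ∈ p.Rl γ τ) (i : Fin 2) :
    (p.u (g * w) - p.u g) i ∈ p.Rl γ τ := by
  have := add_mem (h.coc g w i) (mul_row (γ.ρ g) hw i)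
  exact (sub_add_cancel (p.u (g * w) i - p.u g i) _).subst (motive := (· ∈ _)) this

theorem sH {Z : Set GQ} {x : ι} (m : q.t (inr x) ∈ Z) (i : Fin 2) : p.S x i ∈ p.Us γ τ Z := by
  rw [← sub_add_cancel (p.S x i) (p.u (q.t (inr x)) i)]
  exact add_mem (mem_sup_right (h.hS x i)) (mem_sup_left (subset_span ⟨_, m, i, rfl⟩))

/-- the values of the universal class generate -/
theorem top {L : Submodule R (Fin p.g → R)} (hL : p.Rl γ τ ≤ L) (hu : ∀ g i, p.u g i ∈ L)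
    (hm : ∀ b i, m b i ∈ L) : L = ⊤ := by
  have z : ∀ A : Matrix (Fin 2) _ R, (∀ i, A i ∈ L) → ac A (up L) = ac A 0 := fun A m => by
    rw [ac_zero]
    exact funext fun i => (ac_up L _ i).trans ((mk_zero L).2 (m i))
  have := (h.bij _).injOn (up_rl hL) (ac_zero _) (Prod.ext (funext fun g => z _ (hu g))
    (funext fun b => z _ (hm b)))
  refine eq_top_iff.2 fun v _ => (mk_zero L).1 ?_
  rw [← sum_up, this]
  simp

/-- `p.g` values suffice -/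
theorem gens [IsLocalRing R] : ∃ (f : Fin p.g → GQ) (e : Fin p.g → Fin 2),
    span R (range fun x => p.u (f x) (e x)) ⊔ (p.Rl γ τ ⊔ span R {v | ∃ b i, v = m b i}) = ⊤ := by
  obtain ⟨f, hf⟩ := nak (fun a : GQ × Fin 2 => p.u a.1 a.2)
    (p.Rl γ τ ⊔ span R {v | ∃ b i, v = m b i}) (h.top (le_sup_left.trans le_sup_right)
      (fun g i => mem_sup_left (subset_span (mem_range_self (g, i))))
      fun b i => mem_sup_right (mem_sup_right (subset_span ⟨b, i, rfl⟩)))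
  exact ⟨fun x => (f x).1, fun x => (f x).2, hf⟩

theorem det {b : β} {g : GQ} (hg : g ∈ D b) (i : Fin 2) :
    (γ.ρ g - 1).det • m b i ∈ span R (range (p.u g)) ⊔ p.Rl γ τ := by
  have := mul_row (L := span R (range (p.u g)) ⊔ p.Rl γ τ) (γ.ρ g - 1).adjugate
    (B := (γ.ρ g - 1) * m b) (fun j => by
      show (γ.ρ g - 1) j ᵥ* m b ∈ _
      rw [← sub_sub_cancel (p.u g j) (_ ᵥ* _)]
      exact sub_mem (mem_sup_left (subset_span ⟨j, rfl⟩)) (mem_sup_right (h.st hg j))) i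
  rwa [← Matrix.mul_assoc, adjugate_mul, Matrix.smul_mul, Matrix.one_mul] at this

/-- **generation** up to the factor `δ` by finitely many values -/
theorem gen [IsLocalRing R] {g : β → GQ} (hg : ∀ b, g b ∈ D b) {δ : R}
    (hδ : ∀ b, (γ.ρ (g b) - 1).det ∣ δ) : ∃ (f : Fin p.g → GQ) (e : Fin p.g → Fin 2), ∀ v,
    δ • v ∈ span R (range fun x => p.u (f x) (e x)) ⊔
      (p.Rl γ τ ⊔ span R {v | ∃ b i, v = p.u (g b) i}) := by
  obtain ⟨f, e, k⟩ := h.gens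
  refine ⟨f, e, fun v => ?_⟩
  obtain ⟨x, hx, y', hy', rfl⟩ := mem_sup.1 (k.ge (mem_top (x := v)))
  obtain ⟨y, hy, z, hz, rfl⟩ := mem_sup.1 hy'
  rw [smul_add, smul_add]
  refine add_mem (mem_sup_left (smul_mem _ _ hx))
    (mem_sup_right (add_mem (mem_sup_left (smul_mem _ _ hy)) ?_))
  refine mem_comap.1 ((span_le (p := Submodule.comap (δ • LinearMap.id) _)).2 ?_ hz)
  rintro _ ⟨b, i, rfl⟩
  obtain ⟨d, rfl⟩ := hδ b
  refine mem_comap.2 ?_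
  rw [LinearMap.smul_apply, LinearMap.id_apply, mul_comm, mul_smul]
  refine smul_mem _ _ (SetLike.le_def.1 ?_ (h.det (hg b) i))
  exact sup_le (le_sup_of_le_right (span_mono (range_subset_iff.2 fun j => ⟨b, j, rfl⟩))) le_sup_left

/-- **points** -/
theorem pt {x : (GQ → Fin 2 → R) × (β → Fin 2 → R)} (hx : x ∈ Sf R T γ.ρ c D) :
    ∃ κ, p.Rm γ τ *ᵥ κ = 0 ∧ (∀ g, p.u g *ᵥ κ = x.1 g) ∧ ∀ b, m b *ᵥ κ = x.2 b :=
  ((h.bij R).surjOn hx).imp fun κ e =>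
    ⟨e.1, congrFun (congrArg Prod.fst e.2), congrFun (congrArg Prod.snd e.2)⟩

theorem pt0 [IsEmpty β] {z : GQ → Fin 2 → R} (hz : z ∈ Zq R T γ.ρ c) :
    ∃ κ, p.Rm γ τ *ᵥ κ = 0 ∧ ∀ g, p.u g *ᵥ κ = z g :=
  (h.pt (x := (z, 0)) ⟨hz, fun b => isEmptyElim b⟩).imp fun κ e => ⟨e.1, e.2.1⟩

theorem dg [IsEmpty β] (G : Gd ⊤ T γ.ρ) {v : Fin 2 → R} (hv : γ.ρ c *ᵥ v = v) :
    ∃ κ, p.Rm γ τ *ᵥ κ = 0 ∧ ∀ g, p.u g *ᵥ κ = (γ.ρ g - 1) *ᵥ v := by
  have z : ∀ g, γ.ρ g = 1 → (γ.ρ g - 1) *ᵥ v = 0 := fun g e => by rw [e, sub_self, zero_mulVec]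
  refine h.pt0 ⟨fun g g' => ?_, G.lc.imp fun W e => ⟨e.1, fun w m => z w (e.2 w trivial m)⟩,
    fun g m => z g (G.unr g trivial m), (sub_mulVec ..).trans (by rw [hv, one_mulVec, sub_self])⟩
  show (γ.ρ (g * g') - 1) *ᵥ v = _ + γ.ρ g *ᵥ _
  rw [mulVec_mulVec, ← add_mulVec, map_mul]
  refine congrArg (· *ᵥ v) ?_
  noncomm_ring

omit h in
theorem val {κ : Fin p.g → R} (hκ : p.Rm γ τ *ᵥ κ = 0) {s : Type} {A B : Matrix s (Fin p.g) R}
    (e : ∀ i, A i - B i ∈ p.Rl γ τ) : A *ᵥ κ = B *ᵥ κ := funext fun i =>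
  sub_eq_zero.1 ((map_sub (ev κ) _ _).symm.trans (ev_ker (A := p.Rm γ τ) hκ (e i)))

theorem vF {κ : Fin p.g → R} (hκ : p.Rm γ τ *ᵥ κ = 0) (x : ι) :
    p.F x *ᵥ κ = p.u (q.φ (inr x)) *ᵥ κ := val hκ (h.hF x)

theorem vS {κ : Fin p.g → R} (hκ : p.Rm γ τ *ᵥ κ = 0) (x : ι) :
    p.S x *ᵥ κ = p.u (q.t (inr x)) *ᵥ κ := val hκ (h.hS x)

theorem card (M : Type) [AddCommGroup M] [Module R M] :
    Nat.card {y : Fin p.g → M | ac (p.Rm γ τ) y = 0} = Nat.card (Sf M T γ.ρ c D) :=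
  Nat.card_congr (h.bij M).equiv

end Lu

/-- a cocycle which vanishes at the tame generator is unramified at all places above `l` -/
theorem unr_all {M : Type} [AddCommGroup M] [Module R M] {k l : ℕ} {a : GQ →* M2 R}
    {x : GQ → Fin 2 → M} {P Q : Ideal (𝓞 Qb)} {φ t g : GQ} (h2 : (pp : R) ^ k = 0)
    (K : Tm a l P φ t) (ki : ∀ g, Inert P g → a g = 1) (X : x ∈ Zq M T a c) (h0 : x t = 0)
    (ho : Ov l Q) (hg : Inert Q g) : x g = 0 := by
  obtain ⟨u, rfl⟩ := GW.Pl.ov_trans K.ov ho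
  have m : Inert P (u⁻¹ * g * u) := by simpa using GW.Pl.inert_conj hg u⁻¹
  obtain ⟨W, hW, e⟩ := X.2.1
  obtain ⟨n, hn⟩ := X4F.Lt.lt1 K.ov k K.ne K.gn m hW
  have z := hn _ x (fun v => funext fun i => by
      rw [Pi.smul_apply, ← Nat.cast_smul_eq_nsmul R, Nat.cast_pow, h2, zero_smul]; rfl) (fun g _ m => e g m)
    fun g g' m _ => by rw [X.1, ki g m, one_ac]
  rw [show g = u * ((u⁻¹ * g * u) * u⁻¹) by group, X.1, X.1, z, h0, smul_zero, zero_add, ki _ m,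
    one_ac, ← X.1, mul_inv_cancel, e 1 (one_mem _)]

/-- **one more prime** -/
theorem exl {k : ℕ} (h2 : (pp : R) ^ k = 0) (e : Option ι ≃ ι') {q' : Ps (σ ⊕ ι')}
    {p' : Pk R GQ σ ι'} {m' : β → Matrix (Fin 2) (Fin p'.g) R} (h : Lu γ τ T c D q p m)
    (h' : Lu γ τ T' c D q' p' m') (o : q'.Ok γ τ)
    (hT : ∀ x, x ∈ T' ↔ x = q'.l (inr (e none)) ∨ x ∈ T) (nT : q'.l (inr (e none)) ∉ T)
    (hφ : ∀ x, q'.φ (x.map id (e ∘ some)) = q.φ x) (ht : ∀ x, q'.t (x.map id (e ∘ some)) = q.t x)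
    {g : GQ} (hg : ∀ i, p.u (g⁻¹ * q'.φ (inr (e none))) i ∈ p.Rl γ τ) :
    Nonempty (p.Ext γ τ p' e g) := by
  generalize hL' : p'.Rl γ τ ⊔ span R (range (p'.S (e none))) = L'
  have le : p'.Rl γ τ ≤ L' := hL' ▸ le_sup_left
  have K := o.tm (inr (e none))
  have X := (h.bij _).mapsTo (up_rl le_rfl)
  have X' := (h'.bij _).mapsTo (up_rl le)
  have t0 : ac (p'.u (q'.t (inr (e none)))) (up L') = 0 := funext fun i => by
    rw [ac_up, ← sub_sub_cancel (p'.S (e none) i) (p'.u _ i)]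
    exact (mk_zero L').2 (sub_mem (hL' ▸ mem_sup_right (subset_span ⟨i, rfl⟩)) (le (h'.hS _ i)))
  obtain ⟨y', q1, q2⟩ := (h'.bij _).surjOn (show _ ∈ Sf _ T' γ.ρ c D from ⟨⟨X.1.1, X.1.2.1,
    fun g hg => X.1.2.2.1 g (In_anti (fun p m => (hT p).2 (.inr m)) hg), X.1.2.2.2⟩, X.2⟩)
  obtain ⟨y, q3, q4⟩ := (h.bij _).surjOn (show _ ∈ Sf _ T γ.ρ c D from ⟨⟨X'.1.1, X'.1.2.1,
    fun g ⟨l, hp, Q, ho, hg⟩ => by
      by_cases s : l = q'.l (inr (e none))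
      · exact unr_all h2 K (o.kt _) X'.1 t0 (s ▸ ho) hg
      · exact X'.1.2.2.1 g ⟨l, fun m => ((hT l).1 m).elim s hp, Q, ho, hg⟩, X'.1.2.2.2⟩, X'.2⟩)
  obtain ⟨A, hA⟩ := ex_mat (p.Rl γ τ) y'
  obtain ⟨a1, a3⟩ := Prod.ext_iff.1 q2
  obtain ⟨a4, a6⟩ := Prod.ext_iff.1 q4
  have f0 : ∀ v ∈ p'.Rl γ τ, v ᵥ* A ∈ p.Rl γ τ := fun v hv =>
    (mk_zero _).1 ((hA v).trans (ev_ker q1 hv))
  have f4 : ∀ g i, p'.u g i ᵥ* A - p.u g i ∈ p.Rl γ τ := fun g i => by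
    rw [← mk_zero, map_sub, hA, ← ev_up, sub_eq_zero]
    exact congrFun (congrFun a1 g) i
  have f6 : ∀ b i, m' b i ᵥ* A - m b i ∈ p.Rl γ τ := fun b i => by
    rw [← mk_zero, map_sub, hA, ← ev_up, sub_eq_zero]
    exact congrFun (congrFun a3 b) i
  have f7 : ∀ {v' v g i}, v' - p'.u g i ∈ p'.Rl γ τ → v - p.u g i ∈ p.Rl γ τ →
      v' ᵥ* A - v ∈ p.Rl γ τ := fun {v' v g i} a b => by
    have := sub_mem (add_mem (f0 _ a) (f4 g i)) b
    rwa [sub_vecMul, sub_add_sub_cancel, sub_sub_sub_cancel_right] at this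
  have k0 : ∀ {v}, v ∈ p.Rl γ τ → ev y v = 0 := fun hv => ev_ker q3 hv
  have k1 : ∀ {v v'}, v' ᵥ* A - v ∈ p.Rl γ τ → ev (ac A y) v' = ev y v := fun h => by
    have := k0 h
    rwa [map_sub, ev_vm, sub_eq_zero] at this
  have k2 := (h'.bij _).injOn (x₁ := ac A y) (funext fun i => (ev_vm A y _).symm.trans
    (k0 (f0 _ (subset_span ⟨i, rfl⟩)))) (up_rl le) (Prod.ext
      ((funext fun g => funext fun i => k1 (f4 g i)).trans a4)
      ((funext fun b => funext fun i => k1 (f6 b i)).trans a6))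
  refine ⟨⟨A, fun v => ⟨fun hv => ?_, fun hv => ?_⟩, f4, fun x i => ?_, fun x i => ?_,
    fun x i => ?_, fun i => f7 (h'.hF _ i) ?_⟩⟩
  · rw [hL', ← mk_zero, ← ev_up, ← k2, ← ev_vm, k0 hv]
  · refine (?_ : _ ≤ (p.Rl γ τ).comap (vecMulLinear A)) hv
    refine sup_le f0 (span_le.2 (range_subset_iff.2 fun i => ?_))
    have := f7 (v := 0) (h'.hS (e none) i) (by
      rw [zero_sub]; exact neg_mem (h.unr ⟨_, nT, _, K.ov, K.gn.1⟩ i))
    rwa [sub_zero] at this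
  · have a := h'.hl x i
    have b := h.hl x i
    rw [← hφ, ← ht] at b
    rcases i with i | i
    exacts [f7 a b, f7 a b]
  · exact f7 (h'.hF _ i) (hφ (inr x) ▸ h.hF x i :)
  · exact f7 (h'.hS _ i) (ht (inr x) ▸ h.hS x i :)
  · have := neg_mem (h.tr (g := g) hg i)
    rw [mul_inv_cancel_left] at this
    exact (neg_sub (p.u _ i) (p.u g i)).subst (motive := (· ∈ _)) this

end Vale.Agent.P014U.Pq
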