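import Vale.Agent.P014T.Pq.H2
import Vale.Agent.P014U.Pq.All

/-!
# P014U, block PRESQ: the framed second cohomology of a divisible module of minimal corank
-/

set_option linter.all false

noncomputable section

namespace Vale.Agent.P014U.Pq

open NumberField Module Cardinal Function
open Vale.Agent.P022 Vale.Agent.P022K Vale.Agent.P022K.G2
open Vale.Agent.P022D.W (dec)
open Vale.Agent.P022E.GW (Ov)
open X4F.Pr (F2 Iu ex_lev ac zero_ac Bk)
open scoped Pointwise Classical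

export Vale.Agent.P014T.Pq (Lc Lc2 dd Co lc_of dd_sub dd_add dd_smul fr_mul ex_sep)

variable [Pp] {A : Type} [AddCommGroup A] {ρ : GQ → A →+ A} {T : Finset ℕ} {k : GQ}

/-- **the framed cocycles**: killed by a power of `pp`, unramified outside `T`, zero at `k` -/
def Z0 (ρ : GQ → A →+ A) (T : Finset ℕ) (k : GQ) : AddSubgroup (GQ → A) where
  carrier := {x | IsLocallyConstant x ∧ (∀ g h, x (g * h) = x g + ρ g (x h)) ∧
    (∃ j : ℕ, ∀ g, pp ^ j • x g = 0) ∧ (∀ g ∈ In T, x g = 0) ∧ x k = 0}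
  zero_mem' := ⟨IsLocallyConstant.const 0, fun _ _ => by simp, ⟨0, fun _ => nsmul_zero _⟩,
    fun _ _ => rfl, rfl⟩
  add_mem' := fun ⟨a1, a2, ⟨k, a⟩, a4, a5⟩ ⟨b1, b2, ⟨j, b⟩, b4, b5⟩ => ⟨a1.add b1, fun g h => by
    simp only [Pi.add_apply, a2, b2, map_add]; abel, ⟨k + j, fun g => by
    rw [Pi.add_apply, nsmul_add, pow_add, mul_nsmul, mul_nsmul', a, b, nsmul_zero,
      nsmul_zero, add_zero]⟩, fun g hg => by rw [Pi.add_apply, a4 g hg, b4 g hg, add_zero],
    by rw [Pi.add_apply, a5, b5, add_zero]⟩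
  neg_mem' := fun ⟨a1, a2, ⟨k, a⟩, a4, a5⟩ => ⟨a1.neg, fun g h => by
    simp only [Pi.neg_apply, a2, map_neg]; abel, ⟨k, fun g => by
    rw [Pi.neg_apply, neg_nsmul, a, neg_zero]⟩, fun g hg => by rw [Pi.neg_apply, a4 g hg, neg_zero],
    by rw [Pi.neg_apply, a5, neg_zero]⟩

/-- the part killed by `pp ^ j` -/
def Zj (ρ : GQ → A →+ A) (T : Finset ℕ) (k : GQ) (j : ℕ) : AddSubgroup (GQ → A) :=
  Z0 ρ T k ⊓ (nsmulAddMonoidHom (pp ^ j)).ker

/-- the index of `pp Z` in `Z` -/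
def ix (ρ : GQ → A →+ A) (T : Finset ℕ) (k : GQ) : ℕ :=
  ((Z0 ρ T k).map (nsmulAddMonoidHom pp)).relIndex (Z0 ρ T k)

/-- an action which is smooth and unramified outside `T` on the elements of order a power of `pp` -/
structure Ac (ρ : GQ → A →+ A) (T : Finset ℕ) : Prop where
  one : ∀ x, ρ 1 x = x
  mul : ∀ g h x, ρ (g * h) x = ρ g (ρ h x)
  lc : ∀ (j : ℕ) x, pp ^ j • x = 0 →
    ∃ W : Subgroup GQ, IsOpen (W : Set GQ) ∧ ∀ w ∈ W, ρ w x = x
  unr : ∀ (j : ℕ) x, pp ^ j • x = 0 → ∀ g ∈ In T, ρ g x = x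

/-- `A` is divisible by `pp` and `ι` identifies the residual module with its `pp` torsion -/
structure Dm {n : Type} [Fintype n] (ρ : GQ → A →+ A) (a : GQ → Matrix n n F2)
    (ι : (n → F2) →+ A) : Prop where
  inj : Injective ι
  rng : ∀ x : A, pp • x = 0 → ∃ v, ι v = x
  eq : ∀ g v, ι ((a g).mulVec v) = ρ g (ι v)
  dv : ∀ (j : ℕ) (x : A), pp ^ j • x = 0 → ∃ y, pp • y = x

theorem Ac.z1 (h : Ac ρ T) {x : GQ → A} (e : ∀ g j, x (g * j) = x g + ρ g (x j)) : x 1 = 0 := by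
  have := e 1 1
  rwa [mul_one, h.one, left_eq_add] at this

theorem Ac.lev (h : Ac ρ T) {x : GQ → A} (hx : x ∈ Z0 ρ T k) : Lc T x := by
  obtain ⟨h1, h2, -, h4, -⟩ := hx
  let W : Subgroup GQ :=
    { carrier := x ⁻¹' {0}
      mul_mem' := fun {g j} a b => by
        change x _ = 0
        rw [h2, show x g = 0 from a, show x j = 0 from b, map_zero, add_zero]
      one_mem' := h.z1 h2
      inv_mem' := fun {g} a => by
        have := h2 g⁻¹ g
        rw [inv_mul_cancel, h.z1 h2, show x g = 0 from a, map_zero, add_zero] at this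
        exact this.symm }
  exact lc_of (W := W) (h1 {0}) (fun g w m => by rw [h2, show x w = 0 from m, map_zero, add_zero])
    fun g w m => by rw [h2, h4 w m, map_zero, add_zero]

theorem Ac.dd (h : Ac ρ T) {c : GQ → A} (l : Lc T c) {j : ℕ} (t : ∀ g, pp ^ j • c g = 0) :
    Lc2 T (dd ρ c) := by
  have := l.fin.to_subtype
  have t' : ∀ x : Set.range c, pp ^ j • x.1 = 0 := fun ⟨_, g, e⟩ => e ▸ t g
  choose W hW w using fun x : Set.range c => h.lc j _ (t' x)
  obtain ⟨V, hV, v⟩ := (lc_of (c := fun g (x : Set.range c) => ρ g x.1) (W := ⨅ x, W x)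
    (by rw [Subgroup.coe_iInf]; exact isOpen_iInter_of_finite hW)
    (fun g u m => funext fun x => by rw [h.mul, w x u (Subgroup.mem_iInf.1 m x)])
    fun g u m => funext fun x => by rw [h.mul, h.unr j _ (t' x) u m]).comp2 l Prod.mk
  refine ⟨V, hV, fun g i u m => ⟨?_, ?_⟩⟩
  · have e : g * u * i = g * i * (i⁻¹ * u * i) := by group
    have e1 := congrFun (congrArg Prod.fst (v g u m)) ⟨c i, i, rfl⟩
    have e2 := congrArg Prod.snd (v g u m)
    have e3 := congrArg Prod.snd (v (g * i) _ (hV.cj m i))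
    simp only at e1 e2 e3
    rw [P014T.Pq.dd, P014T.Pq.dd, e1, e2, e, e3]
  · have e2 := congrArg Prod.snd (v i u m)
    have e3 := congrArg Prod.snd (v (g * i) u m)
    simp only at e2 e3
    rw [P014T.Pq.dd, P014T.Pq.dd, e2, ← mul_assoc, e3]

theorem Ac.co (h : Ac ρ T) (c : GQ → A) : Co ρ (P014T.Pq.dd ρ c) := fun g i j => by
  simp only [P014T.Pq.dd, map_add, map_sub, h.mul, mul_assoc]; abel

theorem dd_z0 {x : GQ → A} (hx : x ∈ Z0 ρ T k) (g j : GQ) : dd ρ x g j = 0 := by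
  rw [dd, hx.2.1]; abel

theorem z0_of (h : Ac ρ T) {x : GQ → A} (l : Lc T x) (d : ∀ g j, dd ρ x g j = 0) {j : ℕ}
    (t : ∀ g, pp ^ j • x g = 0) (e : x k = 0) : x ∈ Z0 ρ T k := by
  have c : ∀ g i, x (g * i) = x g + ρ g (x i) := fun g i => by
    have := d g i
    rw [dd] at this
    linear_combination (norm := abel1) -this
  exact ⟨l.lc, c, ⟨j, t⟩, fun g m => (l.unr m).trans (h.z1 c), e⟩

variable {n : Type} [Fintype n] [DecidableEq n] {a : GQ → Matrix n n F2} {ι : (n → F2) →+ A}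

theorem two_io (ι : (n → F2) →+ A) (v : n → F2) : pp • ι v = 0 := by
  rw [← map_nsmul, show pp • v = 0 from funext fun i => by
    rw [Pi.smul_apply, nsmul_eq_mul, ZMod.natCast_self, zero_mul]; rfl, map_zero]

theorem p1 {M : Type} [AddMonoid M] {x : M} : pp ^ 1 • x = 0 ↔ pp • x = 0 := by rw [pow_one]

theorem two_io1 (ι : (n → F2) →+ A) (v : n → F2) : pp ^ 1 • ι v = 0 := p1.2 (two_io ι v)

theorem Dm.gd (d : Dm ρ a ι) (h : Ac ρ T) (pr : ∀ l ∈ T, l.Prime) : Gd ⊤ T a := by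
  have e : ∀ g, (∀ v, ρ g (ι v) = ι v) → a g = 1 := fun g c =>
    Matrix.toLin'.injective (LinearMap.ext fun v => d.inj (by
      rw [Matrix.toLin'_apply, Matrix.toLin'_apply, d.eq, c, Matrix.one_mulVec]))
  choose W hW w using fun v => h.lc 1 _ (two_io1 ι v)
  exact ⟨isOpen_univ, inferInstance, pr, e 1 fun _ => h.one _, fun g _ j _ =>
    Matrix.toLin'.injective (LinearMap.ext fun v => d.inj (by
      rw [Matrix.toLin'_apply, Matrix.toLin'_apply, ← Matrix.mulVec_mulVec, d.eq, d.eq, d.eq,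
        h.mul])), ⟨⨅ v, W v, by rw [Subgroup.coe_iInf]; exact isOpen_iInter_of_finite hW,
      fun g _ m => e g fun v => w v g (Subgroup.mem_iInf.1 m v)⟩,
    fun g _ m => e g fun v => h.unr 1 _ (two_io1 ι v) g m⟩

theorem Dm.iv (d : Dm ρ a ι) {x : A} (e : pp • x = 0) : ι (invFun ι x) = x := invFun_eq (d.rng x e)

/-- the `pp` torsion is the group of the residual module -/
theorem Dm.card (d : Dm ρ a ι) (h : Ac ρ T) :
    Nat.card (Zq F2 T a k) = Nat.card (Zj ρ T k 1) := by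
  refine Nat.card_congr (Equiv.ofBijective (fun x => ⟨fun g => ι (x.1 g), ?_, funext fun g => two_io1 ι _⟩)
    ⟨fun x y e => Subtype.ext (funext fun g => d.inj (congrFun (congrArg Subtype.val e) g)),
      fun ⟨x, hx, t⟩ => ?_⟩)
  · obtain ⟨h1, ⟨W, o, w⟩, h3, h4⟩ := x.2
    exact ⟨((lc_of o (fun g u m => by rw [h1, w u m, P004F.Pr.ac_zero, add_zero])
      fun g u m => by rw [h1, h3 u m, P004F.Pr.ac_zero, add_zero]).comp ι).lc,
      fun g j => by beta_reduce; rw [h1, map_add, ← d.eq]; rfl, ⟨1, fun g => two_io1 ι _⟩,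
      fun g m => by beta_reduce; rw [h3 g m, map_zero], by beta_reduce; rw [h4, map_zero]⟩
  · have e : ∀ g, ι (invFun ι (x g)) = x g := fun g => d.iv (p1.1 (congrFun t g))
    have z : ∀ g, x g = 0 → invFun ι (x g) = 0 := fun g c => d.inj (by rw [e, c, map_zero])
    obtain ⟨W, hW, w⟩ := h.lev hx
    exact ⟨⟨fun g => invFun ι (x g), fun g j => d.inj (by
      rw [map_add, e, e, P004F.Pr.ac_eq, d.eq, e, hx.2.1]), ⟨W, hW.opn, fun u m => z u (by
        rw [← one_mul u, w 1 u m, h.z1 hx.2.1])⟩, fun g m => z g (hx.2.2.2.1 g m),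
      z k hx.2.2.2.2⟩, Subtype.ext (funext e)⟩

/-- the hypotheses on the base -/
structure Bs (T : Finset ℕ) (a : GQ → Matrix n n F2) (k : GQ) : Prop where
  c2 : Fintype.card n ≤ 2
  two : pp ∈ T
  pr : ∀ l ∈ T, l.Prime
  cj : IsConj k
  rel : (∀ v : n → F2, (∀ g, Matrix.vecMul v (a g) = om pp F2 g • v) → v = 0) ∨
    ∃ l ∈ T, l ≠ pp ∧ ∃ Q, Ov l Q ∧ ∀ g ∈ dec Q, a g = 1

theorem z0_fr (h : Ac ρ T) {x : GQ → A} (hx : x ∈ Z0 ρ T k) {g : GQ} (hg : g = 1 ∨ g = k) :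
    x g = 0 := hg.elim (fun e => e ▸ h.z1 hx.2.1) fun e => e ▸ hx.2.2.2.2

theorem card_of {X S : Type} [AddCommGroup X] [Module F2 X] [AddCommGroup S] [Module F2 S]
    [Finite S] {m : ℕ} (r : Module.rank F2 X + m ≤ Module.rank F2 S) :
    Finite X ∧ Nat.card X * pp ^ m ≤ Nat.card S := by
  have f2 : Module.Finite F2 X := Module.rank_lt_aleph0_iff.1
    (((self_le_add_right _ _).trans r).trans_lt (Module.rank_lt_aleph0 _ _))
  refine ⟨Module.finite_of_finite F2, ?_⟩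
  rw [Module.natCard_eq_pow_finrank (K := F2), Module.natCard_eq_pow_finrank (K := F2) (V := S),
    Nat.card_zmod, ← pow_add]
  refine Nat.pow_le_pow_right pp_pos ?_
  rw [← finrank_eq_rank, ← finrank_eq_rank] at r
  exact_mod_cast r

/-- the count -/
theorem key (d : Dm ρ a ι) (h : Ac ρ T) (b : Bs T a k) : Finite (Zj ρ T k 1) ∧ ix ρ T k ≠ 0 ∧
    ix ρ T k * pp ^ Fintype.card n ≤ Nat.card (Zj ρ T k 1) ∧
    (Nat.card (Zj ρ T k 1) ≤ pp ^ Fintype.card n * ix ρ T k →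
      ∀ (w : GQ → GQ → n → F2) (e : GQ → n → F2), Co ρ (fun g j => ι (w g j)) → Lc2 T w →
        (∀ g j, g = 1 ∨ g = k → j = 1 ∨ j = k → ι (w g j) = dd ρ (fun g => ι (e g)) g j) →
        ∃ c : GQ → A, Lc T c ∧ pp • c ∈ Z0 ρ T k ∧ (∀ g j, ι (w g j) = dd ρ c g j) ∧
          ∀ g, g = 1 ∨ g = k → c g = ι (e g)) := by
  have gd := d.gd h b.pr
  obtain ⟨φ, hk⟩ := b.cj
  have mD : ∀ g, g ∈ ⊤ ⊓ St (ip (InfinitePlace.mk φ)) ↔ g = 1 ∨ g = k := fun g =>
    (and_iff_right trivial).trans (Set.ext_iff.1 (st_conj hk) g)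
  have r := res_cnt (y := fun _ : Unit => ip (InfinitePlace.mk φ))
    (b := fun _ _ => (0 : Matrix n Empty F2)) b.c2 gd b.two
    (fun _ => mem_ab_ip.2 (Set.mem_insert _ _)) (fun _ _ _ _ => rfl) ⟨(), _, rfl⟩
    (fun _ _ _ _ _ => Subsingleton.elim _ _) (fun _ => ⟨⊤, isOpen_univ, fun _ _ _ _ _ => rfl⟩)
    (b.rel.imp id fun ⟨l, a, b, Q, c, d⟩ => ⟨l, a, b, Q, c, d, fun _ _ => Sum.inl_ne_inr⟩)
  simp only [wt_ip, Finset.sum_const_zero, Nat.cast_zero, zero_mul, add_zero, Fintype.card_empty,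
    rq] at r
  have fs := zs_fin (P := fun _ : Unit => St (ip (InfinitePlace.mk φ)))
    (b := fun _ _ => (0 : Matrix n Empty F2)) gd
  have cs : Nat.card (Zs F2 ⊤ T a (fun _ : Unit => St (ip (InfinitePlace.mk φ)))
      fun _ _ => (0 : Matrix n Empty F2)) = Nat.card (Zj ρ T k 1) := by
    rw [← d.card h]
    exact (Nat.card_congr ⟨fun x => ⟨(x.1, 0), (zq_iff hk (x.1, 0)).2 x.2⟩,
      fun x => ⟨x.1.1, (zq_iff hk _).1 x.2⟩, fun _ => rfl,
      fun x => Subtype.ext (Prod.ext rfl (Subsingleton.elim _ _))⟩).symm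
  set B := Bk (Iu ⊤ T) ⊤ (fun _ : Unit => ⊤ ⊓ St (ip (InfinitePlace.mk φ)))
    (fun g => (a g).mulVecLin) fun _ _ => (0 : Matrix n Empty F2).mulVecLin with hB
  set Z := Zc (Iu ⊤ T) ⊤ (fun _ : Unit => ⊤ ⊓ St (ip (InfinitePlace.mk φ)))
    fun g => (a g).mulVecLin with hZ
  generalize Zs F2 ⊤ T a (fun _ : Unit => St (ip (InfinitePlace.mk φ)))
      (fun _ _ => (0 : Matrix n Empty F2)) = S at r fs cs
  obtain ⟨f3, cH⟩ := card_of r
  rw [cs] at cH
  have dι : ∀ (c : GQ → n → F2) g j, ι (d1 (fun g => (a g).mulVecLin) c g j) =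
      dd ρ (fun g => ι (c g)) g j := fun c g j => by
    rw [d1_apply, map_add, map_sub, Matrix.mulVecLin_apply, d.eq]; rfl
  have zc : ∀ (w : GQ → GQ → n → F2) (e : GQ → n → F2), Co ρ (fun g j => ι (w g j)) → Lc2 T w →
      (∀ g j, g = 1 ∨ g = k → j = 1 ∨ j = k → ι (w g j) = dd ρ (fun g => ι (e g)) g j) →
      (w, fun _ => e) ∈ Z := fun w e c ⟨W, hW, l⟩ t =>
    ⟨⟨fun g _ i _ j _ => d.inj (by
        rw [map_add, map_add, Matrix.mulVecLin_apply, d.eq]; exact c g i j),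
      W, hW, fun g _ j _ u _ m => l g j u m⟩, fun _ => ⟨by
        obtain ⟨V, hV, v⟩ := ex_sep k
        exact ⟨V, hV, fun g _ u m m' => by
          rw [((mD u).1 m).elim id fun c => v u m' c, mul_one]⟩,
      fun g hg j hj => d.inj ((t g j ((mD g).1 hg) ((mD j).1 hj)).trans (dι e g j).symm)⟩⟩
  let Y : AddSubgroup (GQ → A) :=
    { carrier := {c | Lc T c ∧ pp • c ∈ Z0 ρ T k ∧ ∀ g, g = 1 ∨ g = k → c g = 0}
      zero_mem' := ⟨⟨⊤, Lv.top _, fun _ _ _ => rfl⟩, by simp, fun _ _ => rfl⟩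
      add_mem' := fun {x y} hx hy => ⟨hx.1.comp2 hy.1 (· + ·), by
        rw [smul_add]; exact add_mem hx.2.1 hy.2.1, fun g m => by
          rw [Pi.add_apply, hx.2.2 g m, hy.2.2 g m, add_zero]⟩
      neg_mem' := fun {x} hx => ⟨hx.1.comp Neg.neg, by
        rw [smul_neg]; exact neg_mem hx.2.1, fun g m => by
          rw [Pi.neg_apply, hx.2.2 g m, neg_zero]⟩ }
  have iy : ∀ c : Y, ∀ g j, ι (invFun ι (dd ρ c g j)) = dd ρ c g j := fun c g j =>
    d.iv ((dd_smul pp c.1 g j).symm.trans (dd_z0 c.2.2.1 g j))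
  have ty : ∀ c : Y, ∃ j, ∀ g, pp ^ j • c.1 g = 0 := fun c => by
    obtain ⟨j, t⟩ := c.2.2.1.2.2.1
    exact ⟨j + 1, fun g => by rw [pow_succ, mul_nsmul']; exact t g⟩
  let Δ : Y →+ (GQ → GQ → n → F2) × (Unit → GQ → n → F2) :=
    AddMonoidHom.mk' (fun c => (fun g j => invFun ι (dd ρ c g j), 0)) fun x y =>
      Prod.ext (funext fun g => funext fun j => d.inj (by
        simp only [Prod.fst_add, Pi.add_apply, map_add, iy]
        exact dd_add _ _ g j)) (add_zero _).symm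
  have zΔ : ∀ c, Δ c ∈ Z := fun c => zc _ 0 (by simpa only [Δ, iy] using h.co c.1)
    ((h.dd c.2.1 (ty c).choose_spec).comp _) fun g j hg hj => by
      rw [iy, dd, dd, c.2.2.2 g hg, c.2.2.2 j hj, c.2.2.2 _ (fr_mul ⟨φ, hk⟩ hg hj)]
      simp
  let p2 := B.mkQ.toAddMonoidHom.comp Δ
  have le : p2.range ≤ (Z.map B.mkQ).toAddSubgroup := by
    rintro _ ⟨c, rfl⟩
    exact ⟨_, zΔ c, rfl⟩
  have f4 : Finite p2.range := Finite.of_injective _ (AddSubgroup.inclusion_injective le)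
  let p1 : Y →+ Z0 ρ T k := AddMonoidHom.mk' (fun c => ⟨pp • c.1, c.2.2.1⟩) fun x y =>
    Subtype.ext (smul_add _ _ _)
  have s1 : Surjective p1 := fun ⟨x, hx⟩ => by
    obtain ⟨j, t⟩ := hx.2.2.1
    have : ∀ v : A, ∃ y, (pp ^ j • v = 0 → pp • y = v) ∧ (v = 0 → y = 0) := fun v => by
      by_cases c : v = 0
      · exact ⟨0, fun _ => by rw [c, smul_zero], fun _ => rfl⟩
      by_cases c' : pp ^ j • v = 0
      · exact (d.dv j v c').imp fun y hy => ⟨fun _ => hy, fun e => (c e).elim⟩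
      · exact ⟨0, fun e => (c' e).elim, fun _ => rfl⟩
    choose f f1 f2 using this
    have e : (pp • fun g => f (x g)) = x := funext fun g => f1 _ (t g)
    exact ⟨⟨fun g => f (x g), (h.lev hx).comp f, e.symm ▸ hx, fun g m => f2 _ (z0_fr h hx m)⟩,
      Subtype.ext e⟩
  have kb : ∀ (c : Y) (w : GQ → GQ → n → F2) (e : GQ → n → F2), (w, fun _ => e) - Δ c ∈ B →
      ∃ c' : GQ → n → F2, Lc T c' ∧ (∀ g j, ι (w g j) = dd ρ (c.1 + fun g => ι (c' g)) g j) ∧
        ∀ g, g = 1 ∨ g = k → c' g = e g := fun c w e ⟨c', ⟨W, hW, l⟩, _, e1, e2⟩ =>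
    ⟨c', ⟨W, hW, fun g u m => l g trivial u trivial m⟩, fun g j => by
      rw [dd_add, ← dι, ← e1 g trivial j trivial, ← iy c, ← map_add]
      exact congrArg ι (add_sub_cancel _ _).symm, fun g m => by
        simpa [Δ] using (e2 () g ((mD g).2 m)).symm⟩
  have t2 : ∀ (c : GQ → A) (c' : GQ → n → F2), (pp • (c + fun g => ι (c' g))) = pp • c :=
    fun c c' => funext fun g => by
      simp only [Pi.smul_apply, Pi.add_apply, smul_add, two_io, add_zero]
  have kk : p2.ker ≤ (((Z0 ρ T k).map (nsmulAddMonoidHom pp)).addSubgroupOf (Z0 ρ T k)).comap p1 :=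
    fun c hc => by
      obtain ⟨c', l, e1, e2⟩ := kb c 0 0 (by
        rw [show ((0 : GQ → GQ → n → F2), fun _ : Unit => (0 : GQ → n → F2)) = 0 from rfl, zero_sub]
        exact neg_mem ((Submodule.Quotient.mk_eq_zero B).1 hc))
      obtain ⟨j, t⟩ := ty c
      exact ⟨c.1 + fun g => ι (c' g), z0_of h (c.2.1.comp2 l fun x y => x + ι y)
        (fun g j => (e1 g j).symm.trans (map_zero ι)) (j := j + 1) (fun g => by
          rw [Pi.add_apply, smul_add, pow_succ', mul_nsmul', t, mul_nsmul, two_io]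
          simp) (by
          rw [Pi.add_apply, c.2.2.2 k (.inr rfl), e2 k (.inr rfl)]; simp), t2 _ _⟩
  have dv := AddSubgroup.index_dvd_of_le kk
  rw [AddSubgroup.index_comap_of_surjective _ s1, AddSubgroup.index_ker] at dv
  have i1 : ix ρ T k ≤ Nat.card p2.range := Nat.le_of_dvd Nat.card_pos dv
  have i2 : Nat.card p2.range ≤ Nat.card (Z.map B.mkQ) :=
    Nat.card_le_card_of_injective _ (AddSubgroup.inclusion_injective le)
  refine ⟨Nat.finite_of_card_ne_zero (cs ▸ Nat.card_pos.ne'), ne_zero_of_dvd_ne_zero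
    Nat.card_pos.ne' dv, (Nat.mul_le_mul_right _ (i1.trans i2)).trans cH,
    fun co w e c1 c2 c3 => ?_⟩
  have eq : p2.range = (Z.map B.mkQ).toAddSubgroup := AddSubgroup.eq_of_le_of_card_ge le
    (le_trans (Nat.le_of_mul_le_mul_right (cH.trans (co.trans_eq (mul_comm _ _)))
      (pow_pos pp_pos _)) i1)
  obtain ⟨c, hc⟩ := eq.ge ⟨_, zc w e c1 c2 c3, rfl⟩
  obtain ⟨c', l, e1, e2⟩ := kb c w e ((Submodule.Quotient.eq B).1 hc.symm)
  exact ⟨_, c.2.1.comp2 l fun x y => x + ι y, (t2 _ _).symm ▸ c.2.2.1, e1, fun g m => by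
    rw [c.2.2.2 g m, e2 g m, zero_add]⟩

theorem mem_zj {j : ℕ} {x : GQ → A} : x ∈ Zj ρ T k j ↔ x ∈ Z0 ρ T k ∧ pp ^ j • x = 0 := Iff.rfl

/-- multiplication by `pp` between the levels -/
theorem zj_step (j : ℕ) : ∃ m : ℕ, Nat.card (Zj ρ T k (j + 1)) = Nat.card (Zj ρ T k 1) * m ∧
    Nat.card (Zj ρ T k j) = m *
      ((Z0 ρ T k).map (nsmulAddMonoidHom pp)).relIndex (Zj ρ T k j) ∧
    (Finite (Zj ρ T k 1) → Finite (Zj ρ T k j) → Finite (Zj ρ T k (j + 1))) := by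
  let f : Zj ρ T k (j + 1) →+ Zj ρ T k j := AddMonoidHom.mk' (fun x => ⟨pp • x.1,
    nsmul_mem x.2.1 pp, by
      have := (mem_zj.1 x.2).2
      rwa [pow_succ, mul_nsmul'] at this⟩) fun x y => Subtype.ext (smul_add _ _ _)
  let e : f.ker ≃ Zj ρ T k 1 := ⟨fun x => ⟨x.1.1, x.1.2.1, p1.2 (congrArg Subtype.val x.2)⟩,
    fun x => ⟨⟨x.1, x.2.1, by
      change pp ^ (j + 1) • x.1 = 0
      rw [pow_succ, mul_nsmul', show pp • x.1 = 0 from p1.1 x.2.2, smul_zero]⟩, Subtype.ext (p1.1 x.2.2)⟩,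
    fun _ => rfl, fun _ => rfl⟩
  have r : f.range = ((Z0 ρ T k).map (nsmulAddMonoidHom pp)).addSubgroupOf (Zj ρ T k j) :=
    AddSubgroup.ext fun x => ⟨fun ⟨y, c⟩ => ⟨y.1, y.2.1, congrArg Subtype.val c⟩,
      fun ⟨y, hy, c⟩ => ⟨⟨y, hy, by
        change pp ^ (j + 1) • y = 0
        rw [pow_succ, mul_nsmul', show pp • y = x.1 from c]
        exact x.2.2⟩, Subtype.ext c⟩⟩
  refine ⟨Nat.card f.range, ?_, ?_, fun _ _ => ?_⟩
  · rw [← Nat.card_congr e, ← AddSubgroup.index_ker, AddSubgroup.card_mul_index]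
  · rw [AddSubgroup.relIndex, ← r, AddSubgroup.card_mul_index]
  · have : Finite f.ker := Finite.of_equiv _ e.symm
    exact (AddMonoidHom.finite_iff_finite_ker_range f).2 ⟨inferInstance, inferInstance⟩

section

variable (d : Dm ρ a ι) (h : Ac ρ T) (b : Bs T a k)
include d h b

theorem zj_fin (j : ℕ) : Finite (Zj ρ T k j) := by
  induction j with
  | zero =>
    exact Finite.of_injective (β := Unit) (fun _ => ()) fun x y _ => Subtype.ext
      (((one_smul ℕ _).symm.trans x.2.2).trans ((one_smul ℕ _).symm.trans y.2.2).symm)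
  | succ j ih => exact (zj_step j).choose_spec.2.2 (key d h b).1 ih

/-- the corank is at least the rank -/
theorem low (j : ℕ) :
    pp ^ Fintype.card n * Nat.card (Zj ρ T k j) ≤ Nat.card (Zj ρ T k (j + 1)) := by
  obtain ⟨m, e1, e2, -⟩ := zj_step (ρ := ρ) (T := T) (k := k) j
  obtain ⟨-, k1, k2, -⟩ := key d h b
  have := AddSubgroup.relIndex_le_of_le_right (K := Zj ρ T k j) inf_le_left k1
  rw [e1, e2, mul_comm m, ← mul_assoc, mul_comm (pp ^ _)]
  exact Nat.mul_le_mul_right m ((Nat.mul_le_mul_right _ this).trans k2)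

/-- one step of minimal growth gives the corank condition -/
theorem cor_of {j : ℕ}
    (c : Nat.card (Zj ρ T k (j + 1)) ≤ pp ^ Fintype.card n * Nat.card (Zj ρ T k j)) :
    Nat.card (Zj ρ T k 1) ≤ pp ^ Fintype.card n * ix ρ T k := by
  obtain ⟨m, e1, e2, -⟩ := zj_step (ρ := ρ) (T := T) (k := k) j
  have := zj_fin d h b j
  have m0 : 0 < m := Nat.pos_of_mul_pos_right (e2 ▸ Nat.card_pos)
  rw [e1, e2, mul_comm m, ← mul_assoc] at c
  exact (Nat.le_of_mul_le_mul_right c m0).trans (Nat.mul_le_mul_left _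
    (AddSubgroup.relIndex_le_of_le_right inf_le_left (key d h b).2.1))

/-- a bound for all levels gives the corank condition -/
theorem cor_bd {C : ℕ} (c : ∀ j, Nat.card (Zj ρ T k j) ≤ C * (pp ^ Fintype.card n) ^ j) :
    Nat.card (Zj ρ T k 1) ≤ pp ^ Fintype.card n * ix ρ T k := by
  by_contra n0
  have q0 : 0 < pp ^ Fintype.card n := pow_pos pp_pos _
  have st : ∀ j, (pp ^ Fintype.card n + 1) * Nat.card (Zj ρ T k j) ≤
      Nat.card (Zj ρ T k (j + 1)) := fun j => by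
    have l := not_le.1 fun c => n0 (cor_of d h b (j := j) c)
    obtain ⟨m, e⟩ := AddSubgroup.card_dvd_of_le (H := Zj ρ T k j) (K := Zj ρ T k (j + 1))
      fun x hx => ⟨hx.1, by
        change pp ^ (j + 1) • x = 0
        rw [pow_succ', mul_nsmul', (mem_zj.1 hx).2, smul_zero]⟩
    rw [e, mul_comm _ m] at l ⊢
    exact Nat.mul_le_mul_right _ (Nat.lt_of_mul_lt_mul_right l)
  generalize pp ^ Fintype.card n = q at *
  have : ∀ j, (q + j) * q ^ j ≤ q * Nat.card (Zj ρ T k j) := fun j => by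
    induction j with
    | zero =>
      have := zj_fin d h b 0
      simpa using Nat.le_mul_of_pos_right q Nat.card_pos
    | succ j ih =>
      calc _ ≤ (q + 1) * ((q + j) * q ^ j) := by
            rw [pow_succ', ← mul_assoc, ← mul_assoc]
            exact Nat.mul_le_mul_right _ (by nlinarith)
        _ ≤ (q + 1) * (q * _) := Nat.mul_le_mul_left _ ih
        _ = q * ((q + 1) * _) := by ring
        _ ≤ _ := Nat.mul_le_mul_left _ (st j)
  have l := (this (q * C)).trans (Nat.mul_le_mul_left q (c _))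
  rw [← mul_assoc] at l
  have := Nat.le_of_mul_le_mul_right l (by positivity)
  omega

variable (cor : Nat.card (Zj ρ T k 1) ≤ pp ^ Fintype.card n * ix ρ T k)
include cor

/-- **framed two cocycles of the residual module** come from halves of framed cocycles -/
theorem h2v (w : GQ → GQ → n → F2) (e : GQ → n → F2) (c1 : Co ρ fun g j => ι (w g j))
    (c2 : Lc2 T w)
    (c3 : ∀ g j, g = 1 ∨ g = k → j = 1 ∨ j = k → ι (w g j) = dd ρ (fun g => ι (e g)) g j) :
    ∃ c : GQ → A, Lc T c ∧ pp • c ∈ Z0 ρ T k ∧ (∀ g j, ι (w g j) = dd ρ c g j) ∧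
      ∀ g, g = 1 ∨ g = k → c g = ι (e g) := (key d h b).2.2.2 cor w e c1 c2 c3

/-- **the framed second cohomology vanishes** -/
theorem h2c (m : ℕ) : ∀ (z : GQ → GQ → A) (e : GQ → A), Co ρ z → Lc2 T z →
    (∀ g j, pp ^ m • z g j = 0) → (∀ g, g = 1 ∨ g = k → pp ^ m • e g = 0) →
    (∀ g j, g = 1 ∨ g = k → j = 1 ∨ j = k → z g j = dd ρ e g j) →
    ∃ c : GQ → A, Lc T c ∧ (∃ i : ℕ, ∀ g, pp ^ i • c g = 0) ∧ (∀ g j, z g j = dd ρ c g j) ∧
      ∀ g, g = 1 ∨ g = k → c g = e g := by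
  induction m with
  | zero => exact fun z e _ _ t t' _ => ⟨0, ⟨⊤, Lv.top _, fun _ _ _ => rfl⟩,
      ⟨0, fun _ => smul_zero _⟩, fun g j => by simpa [dd] using t g j,
      fun g m => by simpa using (t' g m).symm⟩
  | succ m ih =>
    intro z e c1 c2 t t' c3
    have iz : ∀ g j, ι (invFun ι (pp ^ m • z g j)) = pp ^ m • z g j := fun g j =>
      d.iv (by rw [← mul_nsmul', ← pow_succ', t])
    have ie : ∀ g, g = 1 ∨ g = k → ι (invFun ι (pp ^ m • e g)) = pp ^ m • e g := fun g c =>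
      d.iv (by rw [← mul_nsmul', ← pow_succ', t' g c])
    obtain ⟨c, l, ⟨-, -, ⟨i, u⟩, -⟩, e1, e2⟩ := h2v d h b cor (fun g j => invFun ι (pp ^ m • z g j))
      (fun g => invFun ι (pp ^ m • e g)) (fun g j u => by
        simp only [iz, map_nsmul, ← smul_add, c1 g j u]) (c2.comp fun v => invFun ι (pp ^ m • v))
      fun g j hg hj => by
        rw [iz, c3 g j hg hj, ← dd_smul, dd, dd, ie g hg, ie j hj, ie _ (fr_mul b.cj hg hj)]
        rfl
    have hv : ∀ (s : ℕ) (x : A), ∃ y, pp ^ (i + 1) • x = 0 → pp ^ s • y = x := fun s x => by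
      induction s with
      | zero => exact ⟨x, fun _ => one_smul _ _⟩
      | succ s ih =>
        obtain ⟨y, hy⟩ := ih
        by_cases c : pp ^ (i + 1) • x = 0
        · obtain ⟨y', e⟩ := d.dv (i + 1 + s) y (by rw [pow_add, mul_nsmul', hy c, c])
          exact ⟨y', fun _ => by rw [pow_succ, mul_nsmul', e, hy c]⟩
        · exact ⟨0, fun e => (c e).elim⟩
    choose f hf using hv m
    have u' : ∀ g, pp ^ (i + 1) • c g = 0 := fun g => by rw [pow_succ, mul_nsmul']; exact u g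
    have e3 : (pp ^ m • fun g => f (c g)) = c := funext fun g => hf _ (u' g)
    have u2 : ∀ g, pp ^ (i + 1 + m) • f (c g) = 0 := fun g => by
      rw [pow_add, mul_nsmul', hf _ (u' g), u']
    obtain ⟨c', l', ⟨i', u3⟩, e4, e5⟩ := ih (fun g j => z g j - dd ρ (fun g => f (c g)) g j)
      (e - fun g => f (c g)) (fun g j u => by
        simp only [map_sub]
        linear_combination (norm := abel1) c1 g j u - h.co (fun g => f (c g)) g j u)
      (c2.comp2 (h.dd (l.comp f) u2) (· - ·))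
      (fun g j => by rw [smul_sub, ← dd_smul, e3, ← e1, iz, sub_self])
      (fun g c => by rw [Pi.sub_apply, smul_sub, hf _ (u' g), e2 g c, ie g c, sub_self])
      fun g j hg hj => by rw [dd_sub, c3 g j hg hj]
    refine ⟨c' + fun g => f (c g), l'.comp2 (l.comp f) (· + ·), ⟨i' + (i + 1 + m), fun g => ?_⟩,
      fun g j => by rw [dd_add, ← e4, sub_add_cancel], fun g c => by
        rw [Pi.add_apply, e5 g c, Pi.sub_apply, sub_add_cancel]⟩
    rw [Pi.add_apply, smul_add, pow_add, mul_nsmul, mul_nsmul', u3, u2, smul_zero, smul_zero,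
      add_zero]

/-- **the framed cocycles are an exact functor on extensions with kernel `A`** -/
theorem onto {B C : Type} [AddCommGroup B] [AddCommGroup C] {σ : GQ → B →+ B} {τ : GQ → C →+ C}
    (hB : Ac σ T) (hC : Ac τ T) (i : A →+ B) (p : B →+ C) (ii : Injective i)
    (ex : ∀ y, p y = 0 ↔ ∃ x, i x = y) (ei : ∀ g x, i (ρ g x) = σ g (i x))
    (ep : ∀ g y, p (σ g y) = τ g (p y))
    (sp : ∀ (j : ℕ) x, pp ^ j • x = 0 → ∃ (j' : ℕ) (y : B), pp ^ j' • y = 0 ∧ p y = x)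
    {x : GQ → C} (hx : x ∈ Z0 τ T k) : ∃ y ∈ Z0 σ T k, ∀ g, p (y g) = x g := by
  obtain ⟨j, t⟩ := hx.2.2.1
  have : ∀ v : Set.range x, ∃ (j' : ℕ) (y : B), pp ^ j' • y = 0 ∧ p y = v ∧ (v.1 = 0 → y = 0) :=
    fun ⟨v, g, e⟩ => by
      by_cases c : v = 0
      · exact ⟨0, 0, smul_zero _, (map_zero p).trans c.symm, fun _ => rfl⟩
      · obtain ⟨j', y, e1, e2⟩ := sp j v (e ▸ t g)
        exact ⟨j', y, e1, e2, fun e => (c e).elim⟩
  choose J f f1 f2 f3 using this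
  have := (hC.lev hx).fin.to_subtype
  obtain ⟨m, hm⟩ := (Set.finite_range J).bddAbove
  let s : GQ → B := fun g => f ⟨x g, g, rfl⟩
  have ls : Lc T s := (hC.lev hx).imp fun W hW => ⟨hW.1, fun g w u => by
    simp only [s, hW.2 g w u]⟩
  have ts : ∀ g, pp ^ m • s g = 0 := fun g => by
    obtain ⟨r, e⟩ := Nat.exists_eq_add_of_le (hm ⟨⟨x g, g, rfl⟩, rfl⟩)
    rw [e, pow_add, mul_nsmul, f1, smul_zero]
  have ps : ∀ g, p (s g) = x g := fun g => f2 _
  have s0 : ∀ g, g = 1 ∨ g = k → s g = 0 := fun g c => f3 _ (z0_fr hC hx c)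
  have iz : ∀ g u, i (invFun i (dd σ s g u)) = dd σ s g u := fun g u => invFun_eq ((ex _).1 (by
    rw [dd, map_add, map_sub, ep, ps, ps, ps]; exact dd_z0 hx g u))
  obtain ⟨c, l, ⟨m', u⟩, e1, e2⟩ := h2c d h b cor m (fun g u => invFun i (dd σ s g u)) 0
    (fun g u v => ii (by simp only [map_add, ei, iz]; exact hB.co s g u v))
    ((hB.dd ls ts).comp _) (fun g u => ii (by
      rw [map_nsmul, iz, ← dd_smul, show pp ^ m • s = 0 from funext ts]; simp [dd]))
    (fun _ _ => smul_zero _) fun g u hg hu => ii (by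
      rw [iz, dd, s0 g hg, s0 u hu, s0 _ (fr_mul b.cj hg hu)]; simp [dd])
  refine ⟨s - fun g => i (c g), z0_of hB (ls.comp2 l fun y z => y - i z) (fun g u => ?_)
    (j := m + m') (fun g => ?_) ?_, fun g => ?_⟩
  · rw [dd_sub, ← iz, e1, dd, dd, map_add, map_sub, ei, sub_self]
  · rw [Pi.sub_apply, smul_sub, ← map_nsmul, pow_add, mul_nsmul, mul_nsmul', ts, u]
    simp
  · rw [Pi.sub_apply, s0 k (.inr rfl), e2 k (.inr rfl)]; simp
  · rw [Pi.sub_apply, map_sub, ps, (ex _).2 ⟨_, rfl⟩, sub_zero]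

end

/-- torsion elements have torsion lifts when the kernel is divisible -/
theorem sp_of {B C : Type} [AddCommGroup B] [AddCommGroup C] (i : A →+ B) (p : B →+ C)
    (ex : ∀ y, p y = 0 ↔ ∃ x, i x = y) (dv : ∀ x : A, ∃ y, pp • y = x) (s : Surjective p) (j : ℕ)
    (x : C) (t : pp ^ j • x = 0) : ∃ (j' : ℕ) (y : B), pp ^ j' • y = 0 ∧ p y = x := by
  obtain ⟨y, rfl⟩ := s x
  obtain ⟨u, e⟩ := (ex (pp ^ j • y)).1 ((map_nsmul p _ _).trans t)
  have : ∀ m : ℕ, ∃ v, pp ^ m • v = u := fun m => by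
    induction m with
    | zero => exact ⟨u, one_smul _ _⟩
    | succ m ih =>
      obtain ⟨v, e⟩ := ih
      obtain ⟨v', e'⟩ := dv v
      exact ⟨v', by rw [pow_succ, mul_nsmul', e', e]⟩
  obtain ⟨v, rfl⟩ := this j
  exact ⟨j, y - i v, by rw [smul_sub, ← e, map_nsmul, sub_self], by
    rw [map_sub, (ex _).2 ⟨v, rfl⟩, sub_zero]⟩

end Vale.Agent.P014U.Pq
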