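import Vale.Agent.P022K.G2.Chi

/-!
# P014U, block PRESQ: planes over the prime field, the stabiliser of a line (helper96)
-/

set_option linter.all false

noncomputable section

namespace Vale.Agent.P014U.Pq.Co

open Module Cardinal
open Vale.Agent.P022 Vale.Agent.P022K.G2 Vale.Agent.P022K.G2.Cn Vale.Agent.P022K.G2.Cx

section gen

variable {G : Type} [Group G] [TopologicalSpace G] {k : Type} [Field k] {N₁ N N₂ : Type}
  [AddCommGroup N₁] [Module k N₁] [AddCommGroup N] [Module k N] [AddCommGroup N₂] [Module k N₂]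
  {I : Set G} {A : Subgroup G} {ρ₁ : G → End k N₁} {ρ σ : G → End k N} {ρ₂ : G → End k N₂}
  {i : N₁ →ₗ[k] N} {π : N →ₗ[k] N₂}

theorem hc_e : hc I A (Empty.elim : Empty → Subgroup G) ρ = h2 I A ρ :=
  le_antisymm (rq_le (.fst _ _ _) (fun _ h => h.1) fun _ _ ⟨c, hc, h⟩ =>
      ⟨c, hc, 0, h, fun i => i.elim⟩)
    (rq_le (.inl _ _ _) (fun _ h => ⟨h, fun i => i.elim⟩) fun _ _ ⟨c, hc, _, h, _⟩ => ⟨c, hc, h⟩)

theorem tn_e : rk (Tn I A (Empty.elim : Empty → Subgroup G) ρ) = rk (Z1 I A ρ) := by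
  have := rk_fst (Y := Empty → N) (Z1 I A ρ)
  rw [rank_subsingleton' k (Empty → N), add_zero] at this
  refine Eq.trans (congrArg rk (le_antisymm (fun _ h => h.1) fun x h => ?_)) this
  exact show x ∈ Tn I A _ ρ from ⟨h, fun i => i.elim⟩

theorem step_e (S : Ses A ρ₁ ρ ρ₂ i π) (r : Rp I A ρ) :
    h2 I A ρ + rk (Z1 I A ρ₁) + rk (Z1 I A ρ₂) ≤ h2 I A ρ₁ + h2 I A ρ₂ + rk (Z1 I A ρ) := by
  obtain ⟨s1, s2⟩ := step G k N₁ N N₂ I A Empty Empty.elim ρ₁ ρ ρ₂ i π (rp1 S r) r (rp2 S r) S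
    fun i => i.elim
  rw [hc_e, hc_e, tn_e, tn_e, tn_e] at s1
  rw [hc_e] at s2
  exact s1.trans (add_le_add_left (add_le_add_right s2 _) _)

theorem h2_ext (S : Ses A ρ₁ ρ ρ₂ i π) (r : Rp I A ρ) (h1 : Z2 I A ρ₁ ≤ B2 I A ρ₁)
    (h2 : Z2 I A ρ₂ ≤ B2 I A ρ₂) : Z2 I A ρ ≤ B2 I A ρ := fun z hz => by
  obtain ⟨⟨q, hq⟩, s, hs⟩ := ex_rs S
  obtain ⟨c, hc, e⟩ := h2 (Z2.amap (ρ' := ρ₂) hz π.toAddMonoidHom S.eqp)
  have c1 := C1.amap (k' := k) hc s
  have w := sub_mem hz (d1_mem r c1)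
  have p0 : ∀ g ∈ A, ∀ h ∈ A, π ((z - d1 ρ fun g => s (c g)) g h) = 0 := fun g hg h hh => by
    have := e g hg h hh
    simp only [LinearMap.toAddMonoidHom_coe, d1_apply] at this
    simp only [Pi.sub_apply, d1_apply, map_sub, map_add, S.eqp g hg, hs, this, sub_self]
  obtain ⟨c', hc', e'⟩ := h1 (show (fun g h => q ((z - d1 ρ fun g => s (c g)) g h)) ∈ Z2 I A ρ₁ from
    ⟨fun g hg h hh j hj => by
      beta_reduce
      rw [← rr S hq hg (p0 h hh j hj), ← map_add, ← map_add, w.1 g hg h hh j hj],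
    C2.amap w.2 q⟩)
  refine ⟨_, add_mem c1 (C1.amap (k' := k) hc' i), fun g hg h hh => ?_⟩
  have := congrArg i (e' g hg h hh)
  rw [ir S hq (p0 g hg h hh)] at this
  simp only [Pi.sub_apply, d1_apply, map_sub, map_add, S.eqi g hg, Pi.add_apply] at this ⊢
  linear_combination (norm := abel1) this

theorem h2_congr (e : ∀ g ∈ A, σ g = ρ g) : h2 I A σ = h2 I A ρ := by
  have e' := fun g hg => (e g hg).symm
  rw [h2, h2, show Z2 I A σ = Z2 I A ρ from le_antisymm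
      (fun _ h => Z2.congr h (fun _ _ _ _ => rfl) e') fun _ h => Z2.congr h (fun _ _ _ _ => rfl) e,
    show B2 I A σ = B2 I A ρ from le_antisymm
      (fun _ h => B2.congr h (fun _ _ _ _ => rfl) e') fun _ h => B2.congr h (fun _ _ _ _ => rfl) e]

/-- classes against a family of conditions -/
theorem rq_fam {X ι : Type} [AddCommGroup X] [Module k X] (Z B : Submodule k X)
    (C : ι → Submodule k X) (le : ∀ j, B ≤ C j) (s : Finset ι) :
    rq Z B ≤ ∑ j ∈ s, rq Z (C j) + rq (Z ⊓ ⨅ j ∈ s, C j) B := by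
  classical
  induction s using Finset.induction_on with
  | empty => simp
  | insert a s ha ih =>
    have := rq_split LinearMap.id (Z ⊓ ⨅ j ∈ s, C j) (B := B) (B' := C a) (le a)
    rw [Submodule.map_id, Submodule.comap_id] at this
    rw [Finset.sum_insert ha, Finset.iInf_insert, inf_comm (C a), ← inf_assoc, add_comm (rq Z (C a)),
      add_assoc]
    exact ih.trans (add_le_add_right (this.symm.trans_le
      (add_le_add_left (rq_mono inf_le_left) _)) _)

end gen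

variable {p : ℕ} [Fact p.Prime] {N : Type} [AddCommGroup N] [Module (ZMod p) N] {I : Set GQ}
  {ρ : GQ → End (ZMod p) N} {A : Subgroup GQ}

theorem om_oz (g : GQ) : om p (ZMod p) g = oz p g := by simp [om]

/-- the kernel, within the group of the roots of unity -/
def Uk (r : Rp I ⊤ ρ) : Subgroup GQ where
  carrier := {g | ρ g = 1 ∧ g ∈ Gz p}
  mul_mem' a b := ⟨by rw [r.mul _ trivial _ trivial, a.1, b.1, mul_one], mul_mem a.2 b.2⟩
  one_mem' := ⟨r.one, one_mem _⟩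
  inv_mem' {a} h := ⟨by
    rw [← r.one, ← mul_inv_cancel a, r.mul _ trivial _ trivial, h.1, one_mul], inv_mem h.2⟩

theorem mul (r : Rp I ⊤ ρ) (g h : GQ) (n : N) : ρ (g * h) n = ρ g (ρ h n) := r.mul' trivial trivial n

theorem uk_nrm (r : Rp I ⊤ ρ) : (Uk r).Normal := ⟨fun u hu g => ⟨LinearMap.ext fun n => by
  rw [mul r, mul r, hu.1, End.one_apply, r.inv trivial]; rfl, Gz_normal.conj_mem u hu.2 g⟩⟩

theorem uk_nz (r : Rp I ⊤ ρ) : Nz A (Uk r) := fun g _ u hu => (uk_nrm r).conj_mem u hu g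

theorem uk_open (r : Rp I ⊤ ρ) : IsOpen (Uk r : Set GQ) := by
  obtain ⟨W, hW, w⟩ := r.lv
  exact Subgroup.isOpen_mono (H₁ := W ⊓ Gz p) (fun x m => ⟨w x trivial m.1, m.2⟩)
    (hW.opn.inter Gz_open)

theorem pw (r : Rp I ⊤ ρ) (s : GQ) (n : ℕ) : ρ (s ^ n) = ρ s ^ n := by
  induction n with
  | zero => simpa using r.one
  | succ n ih => rw [pow_succ, r.mul _ trivial _ trivial, ih, pow_succ]

/-- `s` is a transvection in the basis `e`, `f` with coordinates `μ`, `l` -/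
structure Up (ρ : GQ → End (ZMod p) N) (s : GQ) (e f : N) (μ l : N →ₗ[ZMod p] ZMod p) : Prop where
  gz : s ∈ Gz p
  act : ∀ n, ρ s n = n + l n • e
  dec : ∀ n, μ n • e + l n • f = n
  me : μ e = 1
  le : l e = 0
  lf : l f = 1

/-- order prime to `p`, or a transvection -/
theorem dich [Module.Finite (ZMod p) N] (c2 : finrank (ZMod p) N ≤ 2) (r : Rp I ⊤ ρ)
    (A : Subgroup GQ) : ¬ p ∣ (Uk r).relIndex A ∨ ∃ s ∈ A, ∃ e f μ l, Up ρ s e f μ l := by
  refine or_iff_not_imp_left.2 fun h => ?_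
  haveI := uk_nrm r
  haveI : Finite (A ⧸ (Uk r).subgroupOf A) :=
    Nat.finite_of_card_ne_zero (le_of_open (uk_open r) A).relIndex
  obtain ⟨x, hx⟩ := exists_prime_orderOf_dvd_card' p (not_not.1 h)
  obtain ⟨s, rfl⟩ := QuotientGroup.mk_surjective x
  have h1 : (s : GQ) ^ p ∈ Uk r := (QuotientGroup.eq_one_iff (N := (Uk r).subgroupOf A) (s ^ p)).1
    (by rw [QuotientGroup.mk_pow]; exact orderOf_dvd_iff_pow_eq_one.1 hx.dvd)
  have hz : (s : GQ) ∈ Gz p := by
    have := mem_Gz.1 h1.2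
    rw [oz, map_pow, Units.val_pow_eq_pow_val, ZMod.pow_card] at this
    exact mem_Gz.2 this
  have h2 : ρ s ≠ 1 := fun e => (Fact.out : p.Prime).one_lt.ne' (hx.symm.trans (orderOf_eq_one_iff.2
    ((QuotientGroup.eq_one_iff s).2 (show (s : GQ) ∈ Uk r from ⟨e, hz⟩))))
  haveI := nontrivial_of_ne _ _ h2
  haveI : CharP (End (ZMod p) N) p := charP_of_injective_algebraMap (algebraMap (ZMod p) _).injective p
  obtain ⟨ν, hν⟩ : ∃ ν, ν = ρ s - 1 := ⟨_, rfl⟩
  have h3 : ∃ m, ν ^ m = 0 := ⟨p, by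
    rw [hν, sub_pow_char_of_commute _ (Commute.one_right _), ← pw r, h1.1, one_pow, sub_self]⟩
  classical
  obtain ⟨m, hm⟩ : ∃ m, Nat.find h3 = m + 2 := by
    have a : Nat.find h3 ≠ 0 := fun e => one_ne_zero ((pow_zero ν).symm.trans (e ▸ Nat.find_spec h3))
    have b : Nat.find h3 ≠ 1 := fun e =>
      h2 (sub_eq_zero.1 (hν ▸ (pow_one ν).symm.trans (e ▸ Nat.find_spec h3)))
    exact ⟨Nat.find h3 - 2, by omega⟩
  obtain ⟨v, hv⟩ : ∃ v, (ν ^ (m + 1)) v ≠ 0 := by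
    by_contra! c
    exact Nat.find_min h3 (m := m + 1) (by omega) (LinearMap.ext c)
  rw [pow_succ', End.mul_apply] at hv
  have h4 : ν (ν ((ν ^ m) v)) = 0 := by
    rw [← End.mul_apply, ← End.mul_apply, ← pow_two, ← pow_add, add_comm, ← hm, Nat.find_spec h3]
    rfl
  generalize (ν ^ m) v = f at hv h4
  have li : LinearIndependent (ZMod p) ![ν f, f] := LinearIndependent.pair_iff.2 fun a b e => by
    have e1 := congrArg ν e
    rw [map_add, map_smul, map_smul, h4, smul_zero, zero_add, map_zero] at e1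
    have b0 := (smul_eq_zero.1 e1).resolve_right hv
    rw [b0, zero_smul, add_zero] at e
    exact ⟨(smul_eq_zero.1 e).resolve_right hv, b0⟩
  let b := basisOfLinearIndependentOfCardEqFinrank li
    (le_antisymm li.fintype_card_le_finrank (by simpa using c2))
  have b0 : b 0 = ν f := by simp [b]
  have b1 : b 1 = f := by simp [b]
  have d : ∀ n, b.coord 0 n • ν f + b.coord 1 n • f = n := fun n => by
    have := b.sum_repr n
    rwa [Fin.sum_univ_two, b0, b1] at this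
  refine ⟨s, s.2, ν f, f, b.coord 0, b.coord 1, hz, fun n => ?_, d, by simp [← b0], by simp [← b0],
    by simp [← b1]⟩
  have := congrArg ν (d n)
  rw [map_add, map_smul, map_smul, h4, smul_zero, zero_add] at this
  rw [this, hν, LinearMap.sub_apply, End.one_apply, add_sub_cancel]

variable {s : GQ} {e f : N} {μ l : N →ₗ[ZMod p] ZMod p}

theorem Up.ker (u : Up ρ s e f μ l) {n : N} (h : l n = 0) : μ n • e = n := by
  simpa [h] using u.dec n

theorem Up.pw (u : Up ρ s e f μ l) (r : Rp I ⊤ ρ) (i : ℕ) (n : N) :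
    ρ (s ^ i) n = n + ((i : ZMod p) * l n) • e := by
  induction i with
  | zero => simp [r.one]
  | succ i ih =>
    rw [pow_succ', mul r, ih, u.act, map_add, map_smul, u.le]
    push_cast
    module

/-- the stabiliser of the line -/
def Up.B (u : Up ρ s e f μ l) (r : Rp I ⊤ ρ) : Subgroup GQ where
  carrier := {g | l (ρ g e) = 0}
  mul_mem' {a b} ha hb := by
    show l _ = 0
    rw [mul r, ← u.ker hb, map_smul, map_smul, show l (ρ a e) = 0 from ha, smul_zero]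
  one_mem' := by show l _ = 0; rw [r.one]; exact u.le
  inv_mem' {a} ha := by
    have := congrArg (fun x => l (ρ a⁻¹ x)) (u.ker ha)
    simp only [r.inv' trivial, map_smul, u.le, smul_eq_mul] at this
    refine (mul_eq_zero.1 this).resolve_left fun c => one_ne_zero (α := ZMod p) ?_
    rw [← u.me, ← r.inv' (g := a) trivial e, ← u.ker ha, c, zero_smul, map_zero, map_zero]

/-- the unipotent elements which fix the roots of unity -/
def Up.H (u : Up ρ s e f μ l) (r : Rp I ⊤ ρ) : Subgroup GQ where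
  carrier := {g | ρ g e = e ∧ (∀ n, l (ρ g n) = l n) ∧ g ∈ Gz p}
  mul_mem' ha hb := ⟨by rw [mul r, hb.1, ha.1], fun n => by rw [mul r, ha.2.1, hb.2.1],
    mul_mem ha.2.2 hb.2.2⟩
  one_mem' := ⟨by rw [r.one]; rfl, fun n => by rw [r.one]; rfl, one_mem _⟩
  inv_mem' {a} ha := ⟨by conv_lhs => rw [← ha.1, r.inv' trivial],
    fun n => by rw [← ha.2.1, r.inv trivial], inv_mem ha.2.2⟩

variable (u : Up ρ s e f μ l) (r : Rp I ⊤ ρ)

theorem Up.l_act {g : GQ} (hg : g ∈ u.B r) (n : N) : l (ρ g n) = l (ρ g f) * l n := by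
  conv_lhs => rw [← u.dec n]
  rw [map_add, map_add, map_smul, map_smul, map_smul, map_smul, show l (ρ g e) = 0 from hg,
    smul_zero, zero_add, smul_eq_mul, mul_comm]

theorem Up.ses : Ses (u.B r) (ch fun g => μ (ρ g e)) ρ (ch fun g => l (ρ g f))
    (LinearMap.toSpanSingleton (ZMod p) N e) l :=
  ⟨fun a b c => by simpa [u.me] using congrArg μ c, fun a => ⟨a • f, by simp [u.lf]⟩,
    fun n => ⟨fun h => ⟨_, u.ker h⟩, by rintro ⟨a, rfl⟩; simp [u.le]⟩,
    fun g hg a => by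
      simp only [LinearMap.toSpanSingleton_apply, ch_apply, map_smul]
      rw [mul_comm, mul_smul, u.ker hg], fun g hg n => u.l_act r hg n⟩

theorem Up.hb : u.H r ≤ u.B r := fun g hg => by show l _ = 0; rw [hg.1, u.le]

theorem Up.uh : Uk r ≤ u.H r := fun g hg => ⟨by rw [hg.1]; rfl, fun n => by rw [hg.1]; rfl, hg.2⟩

theorem Up.sh : s ∈ u.H r := ⟨by rw [u.act, u.le, zero_smul, add_zero], fun n => by
  rw [u.act, map_add, map_smul, u.le, smul_zero, add_zero], u.gz⟩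

theorem Up.t1 : ∀ h ∈ u.H r, μ (ρ h e) = 1 := fun h m => by rw [m.1, u.me]

theorem Up.t2 : ∀ h ∈ u.H r, l (ρ h f) = 1 := fun h m => by rw [m.2.1, u.lf]

theorem Up.ib (hs : s ∈ A) : ¬ p ∣ (u.B r).relIndex A := by
  by_cases le : A ≤ u.B r
  · rw [Subgroup.relIndex_eq_one.2 le]
    exact (Fact.out : p.Prime).not_dvd_one
  obtain ⟨g, hg, n⟩ := SetLike.not_le_iff_exists.1 le
  replace n : l (ρ g e) ≠ 0 := n
  have m : ∀ x y : GQ, x⁻¹ * y ∈ u.B r ↔ ∃ a : ZMod p, ρ y e = a • ρ x e := fun x y =>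
    ⟨fun h => ⟨_, by rw [← map_smul, u.ker h, mul r, r.inv trivial]⟩, fun ⟨a, h⟩ => by
      show l _ = 0
      rw [mul r, h, map_smul, r.inv' trivial, map_smul, u.le, smul_zero]⟩
  let F : Option (ZMod p) → GQ := fun o => o.elim 1 fun i => s ^ i.val * g
  have F0 : ρ (F none) e = e := by simp [F, r.one]
  have F1 : ∀ i, ρ (F (some i)) e = ρ g e + (i * l (ρ g e)) • e := fun i => by
    simp [F, mul r, u.pw r]
  have un : ∀ i ∈ (Finset.univ : Finset (Option (ZMod p))), ∀ j ∈ Finset.univ,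
      (F i)⁻¹ * F j ∈ u.B r → i = j := by
    rintro (_ | i) - (_ | j) - h <;> obtain ⟨a, h⟩ := (m _ _).1 h
    · rfl
    · rw [F0, F1] at h
      exact absurd (by simpa [u.le] using congrArg l h) n
    · rw [F0, F1] at h
      have a0 : a = 0 := by simpa [u.le, n] using congrArg l h
      exact absurd (by simpa [a0, u.me] using congrArg μ h) (one_ne_zero (α := ZMod p))
    · rw [F1, F1] at h
      have a1 : a = 1 := by simpa [u.le, n] using (congrArg l h).symm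
      have := congrArg μ h
      simp only [a1, one_smul, map_add, map_smul, u.me, smul_eq_mul, mul_one, add_right_inj] at this
      rw [mul_right_cancel₀ n this]
  have t := tv_image (Γ := A) Finset.univ F (fun o _ => by
      cases o
      exacts [one_mem _, mul_mem (pow_mem hs _) hg]) (fun h hh => by
      by_cases c : l (ρ h e) = 0
      · exact ⟨none, Finset.mem_univ _, (m _ _).2 ⟨_, by rw [F0, u.ker c]⟩⟩
      refine ⟨some ((μ (ρ h e) / l (ρ h e)) - μ (ρ g e) / l (ρ g e)), Finset.mem_univ _,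
        (m _ _).2 ⟨l (ρ h e) / l (ρ g e), ?_⟩⟩
      rw [F1]
      have h1 := u.dec (ρ h e)
      have h2 := u.dec (ρ g e)
      generalize μ (ρ h e) = a, l (ρ h e) = b, μ (ρ g e) = c, l (ρ g e) = d at *
      rw [← h1, ← h2]
      match_scalars <;> field_simp <;> ring) un
  rw [← t.card, @Finset.card_image_of_injOn _ _ _ _ (Classical.propDecidable <| · = ·)
    fun i hi j hj c => un i hi j hj (by rw [c, inv_mul_cancel]; exact one_mem _)]
  simp [(Fact.out : p.Prime).one_lt.ne']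

theorem Up.ih : ¬ p ∣ (u.H r).relIndex (u.B r) := by
  have r' := r.mono subset_rfl (le_top (a := u.B r))
  have m1 := (rp1 (u.ses r) r').mu
  have m2 := (rp2 (u.ses r) r').mu
  let φ : u.B r →* (ZMod p × ZMod p × ZMod p)ˣ := MonoidHom.toHomUnits
    { toFun := fun g => (μ (ρ g e), l (ρ g f), oz p g)
      map_one' := Prod.ext m1.1 (Prod.ext m2.1 oz_one)
      map_mul' := fun a b => Prod.ext (m1.2 _ a.2 _ b.2) (Prod.ext (m2.2 _ a.2 _ b.2) (oz_mul _ _)) }
  have : (u.H r).subgroupOf (u.B r) = φ.ker := Subgroup.ext fun g =>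
    ⟨fun m => Units.ext (Prod.ext (u.t1 r _ m) (Prod.ext (u.t2 r _ m) (mem_Gz.1 m.2.2))), fun m =>
      show (g : GQ) ∈ u.H r from
      ⟨by rw [← u.ker g.2, show μ (ρ g e) = 1 from congrArg (fun x => x.val.1) m, one_smul],
        fun n => by
          rw [u.l_act r g.2, show l (ρ g f) = 1 from congrArg (fun x => x.val.2.1) m, one_mul],
        mem_Gz.2 (congrArg (fun x => x.val.2.2) m)⟩⟩
  rw [Subgroup.relIndex, this, Subgroup.index_ker]
  intro h
  have := h.trans (Subgroup.card_subgroup_dvd_card φ.range)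
  rw [Nat.card_congr MulEquiv.prodUnits.toEquiv, Nat.card_prod,
    Nat.card_congr MulEquiv.prodUnits.toEquiv, Nat.card_prod, Nat.card_eq_fintype_card,
    ZMod.card_units, (Fact.out : p.Prime).dvd_mul, (Fact.out : p.Prime).dvd_mul, or_self,
    or_self] at this
  have h2 := (Fact.out : p.Prime).two_le
  have := Nat.le_of_dvd (by omega) this
  omega

theorem Up.chn : Chn p ⊤ (u.B r) (u.H r) (Uk r) := by
  refine ⟨u.uh r, u.hb r, le_top, uk_nz r, fun g hg h hh => ⟨?_, fun n => ?_,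
    Gz_normal.conj_mem h hh.2.2 g⟩, u.ib r trivial, u.ih r, fun g _ n h hh m => ⟨?_, hh.2.2⟩⟩
  · rw [mul r, mul r, ← u.ker (inv_mem hg), map_smul, hh.1, u.ker (inv_mem hg), r.inv trivial]
  · rw [mul r, mul r, u.l_act r hg, hh.2.1, ← u.l_act r hg, r.inv trivial]
  · have n1 : l (ρ g⁻¹ e) ≠ 0 := fun c => n (inv_mem_iff.1 c)
    have h1 := congrArg (ρ g⁻¹) (u.ker m)
    rw [mul r, mul r, r.inv' trivial, map_smul] at h1
    have h2 := congrArg l h1
    rw [hh.2.1, map_smul, smul_eq_mul, mul_eq_right₀ n1] at h2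
    rw [h2, one_smul, ← u.dec (ρ g⁻¹ e), map_add, map_smul, map_smul, hh.1, add_right_inj] at h1
    refine LinearMap.ext fun x => ?_
    rw [← u.dec x, map_add, map_smul, map_smul, hh.1, ← smul_right_injective N n1 h1]
    rfl

theorem Up.tri : Tri (u.B r) (u.H r) (om p (ZMod p)) N ρ :=
  .cons N ρ (ZMod p) _ _ _ _ (u.ses r) (u.t1 r)
    (fun _ => .inr ⟨s, u.sh r, f, by simp [u.act, u.lf]⟩)
    (.cons (ZMod p) _ Unit (fun _ => 1) _ LinearMap.id 0
      ⟨Function.injective_id, fun _ => ⟨0, rfl⟩, fun n => ⟨fun _ => ⟨n, rfl⟩, fun _ => rfl⟩,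
        fun _ _ _ => rfl, fun _ _ _ => rfl⟩ (u.t2 r)
      (fun e => .inl ⟨LinearMap.id, fun g hg n => by rw [← e g hg]; rfl, fun _ => rfl⟩)
      (.nil Unit _ fun _ => rfl))

/-- two transvections with different lines give minus one -/
theorem Up.neg (hs : s ∈ A) {g : GQ} (hg : g ∈ A) (n : g ∉ u.B r) :
    ∃ d ∈ A, d ∈ u.B r ∧ d ∈ Gz p ∧ μ (ρ d e) = -1 ∧ l (ρ d f) = -1 := by
  replace n : l (ρ g e) ≠ 0 ∧ l (ρ g⁻¹ e) ≠ 0 := ⟨n, fun c => n (inv_mem_iff.1 c)⟩
  obtain ⟨x, hx⟩ : ∃ x, x = s ^ (l (ρ g e))⁻¹.val := ⟨_, rfl⟩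
  obtain ⟨y, hy⟩ : ∃ y, y = g * s ^ (-(l (ρ g⁻¹ e))⁻¹).val * g⁻¹ := ⟨_, rfl⟩
  have x1 : ρ x e = e := by rw [hx, u.pw r, u.le, mul_zero, zero_smul, add_zero]
  have x2 : ρ x (ρ g e) = ρ g e + e := by
    rw [hx, u.pw r, ZMod.natCast_zmod_val, inv_mul_cancel₀ n.1, one_smul]
  have y1 : ρ y e = e - ρ g e := by
    rw [hy, mul r, mul r, u.pw r, ZMod.natCast_zmod_val, neg_mul, inv_mul_cancel₀ n.2, map_add,
      r.inv trivial, map_smul, neg_one_smul, sub_eq_add_neg]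
  have y2 : ρ y (ρ g e) = ρ g e := by
    rw [hy, mul r, mul r, r.inv' trivial, u.pw r, u.le, mul_zero, zero_smul, add_zero]
  have w1 : ρ (x * y * x) e = -ρ g e := by rw [mul r, mul r, x1, y1, map_sub, x1, x2]; abel
  have w2 : ρ (x * y * x) (ρ g e) = e := by
    rw [mul r, mul r, x2, map_add, y1, y2, add_sub_cancel, x1]
  have d1 : ρ (x * y * x * (x * y * x)) e = -e := by rw [mul r, w1, map_neg, w2]
  have d2 : ρ (x * y * x * (x * y * x)) (ρ g e) = -ρ g e := by rw [mul r, w2, w1]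
  have a : x * y * x ∈ A ⊓ Gz p := by
    have a1 : x ∈ A ⊓ Gz p := hx ▸ pow_mem (show s ∈ A ⊓ Gz p from ⟨hs, u.gz⟩) _
    exact mul_mem (mul_mem a1 (hy ▸ ⟨A.mul_mem (A.mul_mem hg (A.pow_mem hs _)) (A.inv_mem hg),
      Gz_normal.conj_mem _ (pow_mem u.gz _) g⟩)) a1
  have b : x * y * x * (x * y * x) ∈ u.B r := by show l _ = 0; rw [d1, map_neg, u.le, neg_zero]
  refine ⟨_, mul_mem a.1 a.1, b, mul_mem a.2 a.2, by rw [d1, map_neg, u.me], ?_⟩
  have := u.l_act r b (ρ g e)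
  rw [d2, map_neg] at this
  exact mul_right_cancel₀ n.1 (by rw [← this, neg_one_mul])

/-- every plane is admissible for a large set of primes -/
theorem ex_ok [Module.Finite (ZMod p) N] (c2 : finrank (ZMod p) N ≤ 2) (r : Rp I ⊤ ρ)
    (T : Finset ℕ) (pr : ∀ l ∈ T, l = 0 ∨ l.Prime) (hI : In T ⊆ I) :
    ∃ T' : Finset ℕ, T ⊆ T' ∧ Ok p T' ⊤ (Uk r) ρ := by
  have k : ∀ H : Subgroup GQ, Uk r ≤ H → ∃ T' : Finset ℕ, T ⊆ T' ∧ Rp (In T') ⊤ ρ ∧
      Lg p T' ⊤ (Uk r) ∧ Bg H T' := fun H le => by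
    obtain ⟨T', a, -, b⟩ := lg p ⊤ (Uk r) H T le_top (fun _ m => m.2) (uk_nz r) (uk_open r)
      (Subgroup.isOpen_mono le (uk_open r)) pr
    exact ⟨T', a, r.mono ((In_anti (Finset.coe_subset.2 a)).trans hI) le_rfl, b⟩
  obtain h | ⟨s, -, e, f, μ, l, u⟩ := dich c2 r ⊤
  · obtain ⟨T', a, b, c, -⟩ := k _ le_rfl
    exact ⟨T', a, inferInstance, b, c, fun _ m => m.1, .inl (pr0 GQ _ N I ⊤ _ ρ r
      (mt (ZMod.natCast_eq_zero_iff _ p).1 h))⟩
  · obtain ⟨T', a, b, c, d⟩ := k _ (u.uh r)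
    exact ⟨T', a, inferInstance, b, c, fun _ m => m.1,
      .inr ⟨_, _, u.chn r, fun _ m => m.2.2, d, u.tri r⟩⟩

end Vale.Agent.P014U.Pq.Co
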