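import Vale.Agent.P014U.Pq.Rep

/-!
# P014U, block PRESQ: the obstruction and the minimal presentation
-/

set_option linter.all false

noncomputable section

namespace Vale.Agent.P014U.Pq

open NumberField Module Cardinal
open Vale.Agent.P022 Vale.Agent.P022K Vale.Agent.P022K.G2
open Vale.Agent.P022K.G2.Hb Vale.Agent.P022K.G2.Cx
open X4F.Pr (F2 Iu ex_lev ac ac_add ac_smul ac_zero ac_map ac_lin ac_sub add_ac
  zero_ac mul_ac one_ac mp Zk Bk min_gen ex_quot fin_char sep_char fin_of rq_bot)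
open scoped Pointwise Classical

variable [Pp] {R : Type} [CommRing R] {n μ ν κ : Type} [Fintype n] [DecidableEq n]
  [Fintype μ] [Fintype ν] {Γ : Subgroup GQ} {T : Finset ℕ} {a : GQ → Matrix n n R}
  {P : κ → Subgroup GQ} {b : κ → GQ → Matrix n μ R} {N : Matrix ν μ R}

section res

variable {a : GQ → Matrix n n F2} {b : κ → GQ → Matrix n μ F2}

theorem gd_rp (h : Gd Γ T a) : Rp (Iu Γ T) Γ fun g => (a g).mulVecLin :=
  ⟨by rw [h.one]; exact Matrix.mulVecLin_one, fun g hg j hj => by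
    rw [h.mul g hg j hj]; exact Matrix.mulVecLin_mul _ _, h.lev.imp fun W hW => ⟨hW.1, fun w hw m => by
      rw [hW.2 w hw m]; exact Matrix.mulVecLin_one⟩⟩

theorem zs_eq {S : Finset ℕ} (h : Gd Γ T a) : Zs F2 Γ S a P b = Zk (Iu Γ S) Γ
    (fun i => Γ ⊓ P i) (fun g => (a g).mulVecLin) fun i g => (b i g).mulVecLin := by
  refine Submodule.ext fun x => ⟨fun hx => ⟨⟨hx.1, hx.2.1, (zs_lev h hx).2.imp fun V hV =>
    ⟨hV.1, fun w hw m => ?_⟩⟩, hx.2.2.2.2⟩, fun ⟨⟨h1, h2, V, hV, v⟩, h5⟩ => ⟨h1, h2, ⟨V, hV.opn,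
      fun w m => ?_⟩, fun w m => ?_, h5⟩⟩
  · rw [← (zs_lev h hx).1, ← hV.2 1 (one_mem _) w hw m, one_mul]
  · exact (em (w ∈ Γ)).elim (fun c => v w c m) (h2 w)
  · exact (em (w ∈ Γ)).elim (fun c => v w c (hV.sub ⟨c, m⟩)) (h2 w)

theorem zs_rk {S : Finset ℕ} (h : Gd Γ T a) : rk (Zs F2 Γ S a P b) ≤
    rk (Z1 (Iu Γ S) Γ fun g => (a g).mulVecLin) + Fintype.card μ := by
  rw [zs_eq h, ← rank_fun' (R := F2), ← Cn.rk_fst]
  exact Submodule.rank_mono fun _ m => m.1

theorem zs_fin (h : Gd Γ T a) : Finite (Zs F2 Γ T a P b) := by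
  obtain ⟨C, hC⟩ := Cardinal.lt_aleph0.1 (fin_z h.opn h.pr inferInstance (gd_rp h))
  refine (fin_of (m := C + Fintype.card μ) ((zs_rk h).trans_eq ?_)).1
  rw [hC]
  push_cast
  rfl

end res

variable {π : R →+* F2}

/-- the relations are bounded by the second cohomology of the cone -/
theorem obs (h : Gd Γ T a)
    (coc : ∀ i, ∀ g ∈ Γ ⊓ P i, ∀ h ∈ Γ ⊓ P i, ∃ β : Matrix n ν R,
      b i (g * h) = b i g + a g * b i h + β * N)
    (lc : ∀ i, ∃ W : Subgroup GQ, IsOpen (W : Set GQ) ∧ ∀ g ∈ Γ ⊓ P i,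
      ∀ w ∈ Γ ⊓ P i, w ∈ W → b i (g * w) = b i g) (min : N.map π = 0)
    {X F : Type} [AddCommGroup X] [Module R X] [AddCommGroup F] [Module R F]
    {x₀ : (GQ → n → X) × (μ → X)} (hx : x₀ ∈ Zn X Γ T a P b N)
    (U : ∀ (M : Type) [AddCommGroup M] [Module R M], (∀ x ∈ Zn M Γ T a P b N,
      ∃ ψ : X →ₗ[R] M, mp ψ x₀ = x) ∧ ∀ ψ ψ' : X →ₗ[R] M, mp ψ x₀ = mp ψ' x₀ → ψ = ψ')
    (p : F →ₗ[R] X) (s : X → F) (hs : ∀ y, p (s y) = y) (pm : p.ker ≤ RingHom.ker π • ⊤) {r : ℕ}
    (φ : (Fin r → F2) →ₗ[F2] p.ker →ₛₗ[π] F2)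
    (φ0 : ∀ d j m, φ d ⟨ac N (fun j => s (x₀.2 j)) j, m⟩ = 0) (φ1 : ∀ d, φ d = 0 → d = 0) : r ≤
      rq (Zc (Iu Γ T) Γ (fun i => Γ ⊓ P i) fun g => ((a g).map π).mulVecLin)
        (Bk (Iu Γ T) Γ (fun i => Γ ⊓ P i) (fun g => ((a g).map π).mulVecLin)
          fun i g => ((b i g).map π).mulVecLin) := by
  let u : GQ → n → F := fun γ i => s (x₀.1 γ i)
  let w : μ → F := fun j => s (x₀.2 j)
  let K := p.ker
  have k0 : ∀ j, ac N w j ∈ K := fun j =>
    (congrFun (ac_lin p N w) j).trans (by simp only [w, hs]; exact congrFun hx.2 j)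
  let τ : F → K := fun y => if m : y ∈ K then ⟨y, m⟩ else 0
  have hτ : ∀ {β : Type} {y : β → F}, (∀ i, y i ∈ K) → (fun i => K.subtype (τ (y i))) = y :=
    fun e => funext fun i => by simp only [τ]; rw [dif_pos (e i)]; rfl
  let O : GQ → GQ → n → K := fun γ δ i => τ ((ac (a γ) (u δ) - u (γ * δ) + u γ) i)
  let O' : κ → GQ → n → K := fun l γ i => τ ((u γ - ac (b l γ) w) i)
  have hO : ∀ γ ∈ Γ, ∀ δ ∈ Γ, (fun i => K.subtype (O γ δ i)) = ac (a γ) (u δ) - u (γ * δ) + u γ :=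
    fun γ hγ δ hδ => hτ fun i => by
      have := congrFun (hx.1.1 γ hγ δ hδ) i
      simp only [K, LinearMap.mem_ker, Pi.add_apply, Pi.sub_apply, map_add, map_sub,
        congrFun (ac_lin p _ _) i, u, hs] at this ⊢
      rw [this]; abel
  have hO' : ∀ l, ∀ γ ∈ Γ ⊓ P l, (fun i => K.subtype (O' l γ i)) = u γ - ac (b l γ) w :=
    fun l γ hγ => hτ fun i => by
      simp only [K, LinearMap.mem_ker, Pi.sub_apply, map_sub, congrFun (ac_lin p _ _) i, u, w, hs]
      exact sub_eq_zero.2 (congrFun (hx.1.2.2.2.2 l γ hγ) i)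
  obtain ⟨x1, V, hV, xv⟩ := zs_lev h hx.1
  have uv : ∀ γ ∈ Γ, ∀ δ ∈ Γ, δ ∈ V → u (γ * δ) = u γ := fun γ hγ δ hδ m => by
    simp only [u, xv γ hγ δ hδ m]
  obtain ⟨V', hV', av⟩ := h.lev
  let ob : (Fin r → F2) →ₗ[F2] (GQ → GQ → n → F2) × (κ → GQ → n → F2) :=
    { toFun := fun d => (fun γ δ i => φ d (O γ δ i), fun l γ i => φ d (O' l γ i))
      map_add' := fun d e => by simp only [map_add]; rfl
      map_smul' := fun m d => by simp only [map_smul]; rfl }
  rw [show (r : Cardinal) = rq (⊤ : Submodule F2 (Fin r → F2)) ⊥ by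
    rw [rq_bot, rk, rank_top, rank_fun', Fintype.card_fin]]
  refine rq_le ob (fun d _ => ⟨⟨fun γ hγ δ hδ ε hε => ?_, V ⊓ V', hV.inf hV',
    fun γ hγ δ hδ ε hε m => ⟨?_, ?_⟩⟩, fun l => ⟨?_, fun γ hγ δ hδ => ?_⟩⟩) ?_
  · have : ac (a γ) (O δ ε) + O γ (δ * ε) = O (γ * δ) ε + O γ δ := by
      refine funext fun i => K.injective_subtype ?_
      simp only [Pi.add_apply, map_add, congrFun (ac_lin K.subtype _ _) i,
        congrFun (hO _ hγ _ (mul_mem hδ hε)) i, congrFun (hO _ (mul_mem hγ hδ) _ hε) i,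
        congrFun (hO _ hγ _ hδ) i, hO _ hδ _ hε, ac_add, ac_sub, Pi.sub_apply]
      rw [h.mul γ hγ δ hδ, mul_ac, mul_assoc]
      abel
    refine funext fun i => ?_
    have := congrArg (φ d) (congrFun this i)
    rwa [Pi.add_apply, Pi.add_apply, map_add, map_add, congrFun (ac_map (φ d) _ _) i] at this
  · have e : γ * ε * δ = γ * δ * (δ⁻¹ * ε * δ) := by group
    simp only [ob, O, LinearMap.coe_mk, AddHom.coe_mk]
    rw [h.mul γ hγ ε hε, av ε hε m.2, mul_one, uv γ hγ ε hε m.1, e,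
      uv _ (mul_mem hγ hδ) _ (cj_mem hδ hε) (hV.cj m.1 δ)]
  · simp only [ob, O, LinearMap.coe_mk, AddHom.coe_mk]
    rw [uv δ hδ ε hε m.1, ← mul_assoc, uv _ (mul_mem hγ hδ) ε hε m.1]
  · obtain ⟨W, oW, bw⟩ := lc l
    obtain ⟨W', hW', le⟩ := ex_lv' oW
    refine ⟨V ⊓ W', (hV.mono (Set.empty_subset _)).inf hW', fun γ hγ δ hδ m => ?_⟩
    simp only [ob, O', LinearMap.coe_mk, AddHom.coe_mk]
    rw [uv γ hγ.1 δ hδ.1 m.1, bw γ hγ δ hδ (le m.2)]
  · obtain ⟨β, hβ⟩ := coc l γ hγ δ hδ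
    have : O γ δ + ac β (fun j => ⟨_, k0 j⟩) = ac (a γ) (O' l δ) - O' l (γ * δ) + O' l γ := by
      refine funext fun i => K.injective_subtype ?_
      simp only [map_add, map_sub, congrFun (ac_lin K.subtype _ _) i, congrFun (hO _ hγ.1 _ hδ.1) i,
        congrFun (hO' l _ hγ) i, congrFun (hO' l _ (mul_mem hγ hδ)) i, hO' l _ hδ, hβ, add_ac,
        mul_ac, ac_sub, Pi.add_apply, Pi.sub_apply]
      change _ + ac β (ac N w) i = _
      abel
    refine funext fun i => ?_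
    have := congrArg (φ d) (congrFun this i)
    rwa [Pi.add_apply, Pi.add_apply, Pi.sub_apply, map_add, map_add, map_sub,
      congrFun (ac_map (φ d) _ _) i, congrFun (ac_map (φ d) _ _) i,
      show (fun j => φ d ⟨ac N w j, k0 j⟩) = 0 from funext fun j => φ0 d j _, ac_zero,
      Pi.zero_apply, add_zero] at this
  rintro d - ⟨c₁, ⟨V₁, hV₁, cv⟩, l₁, e1, e2⟩
  refine φ1 d (by_contra fun n0 => ?_)
  obtain ⟨e, e0⟩ : ∃ e, φ d e = 1 := (DFunLike.ne_iff.1 n0).elim fun e e0 =>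
    ⟨(φ d e)⁻¹.val • e, by
      rw [map_nsmul, nsmul_eq_mul, ZMod.natCast_zmod_val]; exact inv_mul_cancel₀ e0⟩
  let Kc := (LinearMap.ker (φ d)).map K.subtype
  let ι : F2 → F ⧸ Kc := fun m => Kc.mkQ (m.val • e : K)
  have i2 : ∀ m, φ d (m.val • e) = m := fun m => by
    rw [map_nsmul, e0, nsmul_eq_mul, ZMod.natCast_zmod_val, mul_one]
  have i1 : ∀ y : K, Kc.mkQ y = ι (φ d y) := fun y => (Submodule.Quotient.eq _).2
    ⟨y - (φ d y).val • e, by
      rw [SetLike.mem_coe, LinearMap.mem_ker, map_sub, i2, sub_self], rfl⟩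
  have i3 : ∀ {β γ : Type} [Fintype γ] (A : Matrix β γ R) (y : γ → F2),
      ac A (fun j => ι (y j)) = fun i => ι (ac (A.map π) y i) := fun A y => by
    refine (ac_lin (Kc.mkQ ∘ₗ K.subtype) A fun j => (y j).val • e).symm.trans (funext fun i =>
      (i1 _).trans ?_)
    rw [congrFun (ac_map (φ d) _ _) i]
    simp only [i2]
  have i4 : ∀ m m', ι (m + m') = ι m + ι m' := fun m m' => by
    rw [← i2 m, ← i2 m', ← map_add, ← i1, ← i1, ← i1, Submodule.coe_add, map_add]
  have i5 : ∀ m m', ι (m - m') = ι m - ι m' := fun m m' => by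
    rw [eq_sub_iff_add_eq, ← i4, sub_add_cancel]
  have i0 : ι 0 = 0 := by simp [ι]
  let z : GQ → n → F ⧸ Kc := fun γ i => Kc.mkQ (u γ i) - ι (c₁ γ i)
  have z1 : ∀ γ ∈ Γ, ∀ δ ∈ Γ, z (γ * δ) = z γ + ac (a γ) (z δ) := fun γ hγ δ hδ => by
    refine funext fun i => ?_
    have k1 := i1 (O γ δ i)
    rw [show φ d (O γ δ i) = _ from congrFun (e1 γ hγ δ hδ) i,
      show (O γ δ i : F) = _ from congrFun (hO γ hγ δ hδ) i] at k1
    simp only [d1_apply, Pi.add_apply, Pi.sub_apply, i4, i5, map_add, map_sub,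
      congrFun (ac_lin Kc.mkQ _ _) i] at k1
    have k2 := congrFun (ac_sub (a γ) (fun i => Kc.mkQ (u δ i)) fun i => ι (c₁ δ i)) i
    rw [i3] at k2
    change _ = z γ i + ac (a γ) ((fun i => Kc.mkQ (u δ i)) - fun i => ι (c₁ δ i)) i
    rw [k2]
    simp only [z, Pi.sub_apply]
    change _ = ι (ac ((a γ).map π) (c₁ δ) i) - _ + _ at k1
    linear_combination (norm := abel1) -k1
  have z0 : ∀ γ ∈ Γ, γ ∈ V ⊓ V₁ → z γ = 0 := fun γ hγ m => by
    have k1 := z1 1 (one_mem _) 1 (one_mem _)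
    rw [mul_one, h.one, one_ac, left_eq_add] at k1
    rw [← k1, ← one_mul γ]
    simp only [z, uv 1 (one_mem _) γ hγ m.1, cv 1 (one_mem _) γ hγ m.2]
  have zm : ((Γ : Set GQ).indicator z, fun j => Kc.mkQ (w j) - ι (l₁ j)) ∈
      Zn (F ⧸ Kc) Γ T a P b N :=
    ⟨⟨fun γ hγ δ hδ => by
        simp only [Set.indicator_of_mem hγ, Set.indicator_of_mem hδ,
          Set.indicator_of_mem (mul_mem hγ hδ), z1 γ hγ δ hδ],
      fun γ hγ => Set.indicator_of_notMem hγ z, ⟨_, (hV.inf hV₁).opn, fun γ m =>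
        Set.indicator_apply_eq_zero.2 fun c => z0 γ c m⟩,
      fun γ m => Set.indicator_apply_eq_zero.2 fun c => z0 γ c ((hV.inf hV₁).sub ⟨c, m⟩),
      fun l γ hγ => (Set.indicator_of_mem hγ.1 z).trans (funext fun i => by
        have k1 := i1 (O' l γ i)
        rw [show φ d (O' l γ i) = _ from congrFun (e2 l γ hγ) i,
          show (O' l γ i : F) = _ from congrFun (hO' l γ hγ) i] at k1
        simp only [Pi.sub_apply, i5, map_sub, congrFun (ac_lin Kc.mkQ _ _) i] at k1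
        have k2 := congrFun (ac_sub (b l γ) (fun i => Kc.mkQ (w i)) fun i => ι (l₁ i)) i
        rw [i3] at k2
        refine Eq.trans ?_ k2.symm
        simp only [z, Pi.sub_apply]
        change _ = _ - ι (ac ((b l γ).map π) l₁ i) at k1
        linear_combination (norm := abel1) k1)⟩, by
      refine (ac_sub N (fun i => Kc.mkQ (w i)) fun i => ι (l₁ i)).trans (funext fun j => ?_)
      rw [i3, min, zero_ac, ← ac_lin, Pi.sub_apply, i1 ⟨_, k0 j⟩, φ0 d j]
      exact sub_self _⟩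
  obtain ⟨ψ, hψ⟩ := (U _).1 _ zm
  have kc : Kc ≤ K := Submodule.map_subtype_le _ _
  have qi : ∀ m, Kc.liftQ p kc (ι m) = 0 := fun m => (m.val • e : K).2
  have id1 := (U X).2 (Kc.liftQ p kc ∘ₗ ψ) .id (by
    refine (congrArg (mp (Kc.liftQ p kc)) hψ).trans (Prod.ext (funext fun γ => funext fun i => ?_)
      (funext fun j => ?_))
    · by_cases c : γ ∈ Γ
      · simp only [mp, Set.indicator_of_mem c, z, map_sub, qi, sub_zero]
        exact hs _
      · simp only [mp, Set.indicator_of_notMem c, hx.1.2.1 γ c, Pi.zero_apply, map_zero]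
    · simp only [mp, map_sub, qi, sub_zero]
      exact hs _)
  have k2 : (Kc.mkQ - ψ ∘ₗ p) e = 0 := Submodule.smul_induction_on (pm e.2) (fun m hm y _ => by
    obtain ⟨y', hy⟩ := Kc.mkQ_surjective ((Kc.mkQ - ψ ∘ₗ p) y)
    have m' : y' ∈ K := by
      change Kc.liftQ p kc (Kc.mkQ y') = 0
      rw [hy, LinearMap.sub_apply, map_sub, sub_eq_zero]
      exact (LinearMap.congr_fun id1 (p y)).symm
    rw [map_smul, ← hy, ← map_smul]
    refine (i1 (m • ⟨y', m'⟩)).trans ?_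
    rw [map_smulₛₗ, show π m = 0 from hm, zero_smul, i0]) fun y y' c c' => by
      rw [map_add, c, c', add_zero]
  rw [LinearMap.sub_apply, LinearMap.comp_apply, show p e = 0 from e.2, map_zero, sub_zero] at k2
  obtain ⟨y, hy, c⟩ := (Submodule.Quotient.mk_eq_zero _).1 k2
  rw [← Subtype.ext c, show φ d y = 0 from hy] at e0
  exact zero_ne_one e0

variable [IsLocalRing R] [Finite R]

/-- the minimal presentation -/
theorem ex_pres (h : Gd Γ T a)
    (coc : ∀ i, ∀ g ∈ Γ ⊓ P i, ∀ h ∈ Γ ⊓ P i, ∃ β : Matrix n ν R,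
      b i (g * h) = b i g + a g * b i h + β * N)
    (lc : ∀ i, ∃ W : Subgroup GQ, IsOpen (W : Set GQ) ∧ ∀ g ∈ Γ ⊓ P i,
      ∀ w ∈ Γ ⊓ P i, w ∈ W → b i (g * w) = b i g) (min : N.map π = 0) :
    ∃ (g r : ℕ) (Q : Matrix (Fin r) (Fin g) R) (u : GQ → Matrix n (Fin g) R)
      (w : Matrix μ (Fin g) R), Pres π Γ T a P b N Q u w ∧ r ≤
        rq (Zc (Iu Γ T) Γ (fun i => Γ ⊓ P i) fun g => ((a g).map π).mulVecLin)
          (Bk (Iu Γ T) Γ (fun i => Γ ⊓ P i) (fun g => ((a g).map π).mulVecLin)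
            fun i g => ((b i g).map π).mulVecLin) := by
  have hk := zs_fin (P := P) (b := fun i g => (b i g).map π) (h.map π)
  obtain ⟨X, _, _, _, x₀, hx, U⟩ := univ (N := N) π hk
  obtain ⟨g, v, -, v1, v2⟩ := min_gen π (⊤ : Submodule R X) ⊥
  let p : (Fin g → R) →ₗ[R] X := Fintype.linearCombination R v
  obtain ⟨s, hs⟩ : ∃ s : X → Fin g → R, ∀ y, p (s y) = y := by
    choose s hs using fun y => v1 y trivial
    exact ⟨s, fun y => (sub_eq_zero.1 (hs y)).symm⟩
  have pm : ∀ y, p y = 0 → ∀ t, π (y t) = 0 := v2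
  clear_value p
  clear v1 v2 v
  let u : GQ → Matrix n (Fin g) R := fun γ i => s (x₀.1 γ i)
  let w : Matrix μ (Fin g) R := fun j => s (x₀.2 j)
  have px : mp p (u, w) = x₀ := Prod.ext (funext fun _ => funext fun _ => hs _)
    (funext fun _ => hs _)
  have mw : N * w = ac (M := Fin g → R) N w :=
    funext fun i => funext fun j => by simp [ac, Matrix.mul_apply]
  let K₀ := Submodule.span R (Set.range (N * w))
  have k0 : K₀ ≤ p.ker := Submodule.span_le.2 (by
    rintro _ ⟨t, rfl⟩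
    rw [mw]
    exact (congrFun (ac_lin p N w) t).trans (by simp only [w, hs]; exact congrFun hx.2 t))
  obtain ⟨r, Q, q1, q2, q3⟩ := min_gen π p.ker K₀
  have bij : ∀ (M : Type) [AddCommGroup M] [Module R M],
      Set.BijOn (fun y : Fin g → M => (fun γ => ac (u γ) y, ac w y))
        {y | ac (Matrix.of Q) y = 0 ∧ ac (N * w) y = 0}
        {x | x ∈ Zs M Γ T a P b ∧ ac N x.2 = 0} := by
    intro M _ _
    have k : ∀ y : Fin g → M, ac (Matrix.of Q) y = 0 ∧ ac (N * w) y = 0 → ∃ ψ : X →ₗ[R] M,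
        (∀ z, ψ (p z) = Fintype.linearCombination R y z) ∧
        mp ψ x₀ = (fun γ => ac (u γ) y, ac w y) := fun y hy => by
      have e : p.ker ≤ LinearMap.ker (Fintype.linearCombination R y) := fun z hz => by
        obtain ⟨c, hc⟩ := q2 z hz
        have := (Submodule.span_le (p := LinearMap.ker (Fintype.linearCombination R y))).2
          (by rintro _ ⟨t, rfl⟩; exact congrFun hy.2 t) hc
        rwa [LinearMap.mem_ker, map_sub, map_sum, Finset.sum_eq_zero fun t _ => by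
          rw [map_smul, show Fintype.linearCombination R y (Q t) = 0 from congrFun hy.1 t,
            smul_zero], sub_zero] at this
      have e2 : ∀ z, (p.ker.liftQ _ e ∘ₗ
          (p.quotKerEquivOfSurjective fun y => ⟨_, hs y⟩).symm.toLinearMap) (p z) =
          Fintype.linearCombination R y z := fun z => congrArg (p.ker.liftQ _ e)
        ((p.quotKerEquivOfSurjective fun y => ⟨_, hs y⟩).symm_apply_apply (p.ker.mkQ z))
      exact ⟨_, e2, px ▸ Prod.ext (funext fun _ => funext fun _ => e2 _) (funext fun _ => e2 _)⟩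
    refine ⟨fun y hy => ?_, fun y hy z hz e => ?_, fun x hx' => ?_⟩
    · obtain ⟨ψ, -, e⟩ := k y hy
      beta_reduce
      exact e ▸ zn_map ψ hx
    · obtain ⟨ψ, e1, e2⟩ := k y hy
      obtain ⟨ψ', e3, e4⟩ := k z hz
      obtain rfl := (U M).2 ψ ψ' (e2.trans (e.trans e4.symm))
      exact funext fun t => by simpa using (e1 (Pi.single t 1)).symm.trans (e3 _)
    · obtain ⟨ψ, rfl⟩ := (U M).1 x hx'
      have e : ∀ z, Fintype.linearCombination R (fun t => ψ (p (Pi.single t 1))) z = ψ (p z) :=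
        LinearMap.congr_fun (g := ψ ∘ₗ p) (LinearMap.pi_ext' fun t => LinearMap.ext_ring (by simp))
      exact ⟨fun t => ψ (p (Pi.single t 1)), ⟨funext fun t => (e _).trans
        ((congrArg ψ (q1 t)).trans (map_zero ψ)), funext fun t => (e _).trans
          ((congrArg ψ (k0 (Submodule.subset_span ⟨t, rfl⟩))).trans (map_zero ψ))⟩,
        px ▸ Prod.ext (funext fun _ => funext fun _ => e _) (funext fun _ => e _)⟩
  have qm : (Matrix.of Q).map π = 0 := Matrix.ext fun t => pm _ (q1 t)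
  refine ⟨g, r, .of Q, u, w, ⟨qm, bij, ?_⟩, ?_⟩
  · letI : Module R F2 := Module.compHom _ π
    have e : ∀ {β γ : Type} [Fintype γ] (A : Matrix β γ R) (y : γ → F2),
        ac A y = ac (A.map π) y := fun _ _ => rfl
    have e1 : ∀ y : Fin g → F2, ac (Matrix.of Q) y = 0 ∧ ac (N * w) y = 0 := fun y => by
      rw [e, e, qm, Matrix.map_mul, min, Matrix.zero_mul, zero_ac, zero_ac]
      exact ⟨rfl, rfl⟩
    refine (Nat.card_congr (((Equiv.subtypeUnivEquiv e1).symm.trans (bij F2).equiv).trans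
      (Equiv.subtypeEquivRight fun x => and_iff_left ?_))).symm.trans (by simp)
    rw [e, min, zero_ac]
  choose c hc using fun y : p.ker => q2 y y.2
  have cw : ∀ (y : p.ker) (d : Fin r → R), y.1 - ∑ t, d t • Q t ∈ K₀ →
      ∀ t, π (c y t) = π (d t) := fun y d e t => by
    rw [← sub_eq_zero, ← map_sub]
    refine q3 (c y - d) ?_ t
    convert sub_mem e (hc y) using 1
    simp only [Pi.sub_apply, sub_smul, Finset.sum_sub_distrib]; abel
  let θ : Fin r → p.ker →ₛₗ[π] F2 := fun t => ⟨⟨fun y => π (c y t), fun y z => by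
      rw [← map_add]
      refine cw _ (c y + c z) ?_ t
      convert add_mem (hc y) (hc z) using 1
      simp only [Pi.add_apply, add_smul, Finset.sum_add_distrib, Submodule.coe_add]; abel⟩,
    fun m y => by
      rw [smul_eq_mul, ← map_mul]
      refine cw _ (m • c y) ?_ t
      convert K₀.smul_mem m (hc y) using 1
      simp only [Pi.smul_apply, smul_eq_mul, mul_smul, Submodule.coe_smul, smul_sub,
        Finset.smul_sum]⟩
  refine obs h coc lc min hx U p s hs (fun y hy => ?_) (Fintype.linearCombination F2 θ)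
    (fun d j m => ?_) fun d e => funext fun t => ?_
  · rw [pi_eq_sum_univ' y]
    exact Submodule.sum_mem _ fun t _ => Submodule.smul_mem_smul (pm y hy t) trivial
  · simp only [Fintype.linearCombination_apply, LinearMap.sum_apply, LinearMap.smul_apply]
    exact Finset.sum_eq_zero fun t _ => by
      rw [show θ t ⟨_, m⟩ = 0 from (cw _ 0 (by
        simpa using Submodule.subset_span (s := Set.range (N * w)) ⟨j, congrFun mw j⟩) t).trans (map_zero π), smul_zero]
  · have : ∀ t', θ t' ⟨Q t, q1 t⟩ = π (Pi.single (M := fun _ => R) t 1 t') :=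
      cw _ _ (by simp [Pi.single_apply])
    simpa [Fintype.linearCombination_apply, this, Pi.single_apply, apply_ite π] using
      LinearMap.congr_fun e ⟨Q t, q1 t⟩

omit [IsLocalRing R] [Finite R] in
/-- zero relations may be added -/
theorem Pres.pad {g r r' : ℕ} {Q : Matrix (Fin r) (Fin g) R} {u : GQ → Matrix n (Fin g) R}
    {w : Matrix μ (Fin g) R} (h : Pres π Γ T a P b N Q u w) (le : r ≤ r') :
    ∃ Q' : Matrix (Fin r') (Fin g) R, Pres π Γ T a P b N Q' u w := by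
  refine ⟨.of fun t s => if c : t.1 < r then Q ⟨t, c⟩ s else 0, Matrix.ext fun t s => ?_,
    fun M _ _ => ?_, h.crd⟩
  · simp only [Matrix.map_apply, Matrix.of_apply, Matrix.zero_apply]
    split_ifs
    exacts [congrFun (congrFun h.min _) s, map_zero π]
  · convert h.bij M using 3 with y
    refine and_congr_left' ⟨fun e => funext fun t => ?_, fun e => funext fun t => ?_⟩
    · simpa [ac] using congrFun e (t.castLE le)
    · by_cases c : t.1 < r
      · simpa [ac, c] using congrFun e ⟨t, c⟩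
      · simp [ac, c]

omit [IsLocalRing R] [Finite R] in
/-- the lower bound for the number of points -/
theorem Pres.card_le {g r : ℕ} {Q : Matrix (Fin r) (Fin g) R} {u : GQ → Matrix n (Fin g) R}
    {w : Matrix μ (Fin g) R} (h : Pres π Γ T a P b N Q u w) (M : Type) [AddCommGroup M]
    [Module R M] [Finite M] : Finite (Zn M Γ T a P b N) ∧ Nat.card M ^ g ≤
      Nat.card (Zn M Γ T a P b N) * Nat.card M ^ (r + Fintype.card ν) := by
  let f : (Fin g → M) →+ (Fin r → M) × (ν → M) :=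
    AddMonoidHom.mk' (fun y => (ac Q y, ac (N * w) y)) fun y z => by simp only [ac_add]; rfl
  let e : f.ker ≃ Zn M Γ T a P b N :=
    (Equiv.subtypeEquivRight fun y => Prod.mk_eq_zero).trans (h.bij M).equiv
  refine ⟨Finite.of_equiv _ e, ?_⟩
  rw [← Nat.card_congr e, show Nat.card M ^ g = Nat.card (Fin g → M) by simp [Nat.card_fun],
    ← AddSubgroup.card_mul_index f.ker, AddSubgroup.index_ker]
  exact Nat.mul_le_mul_left _ ((Nat.card_le_card_of_injective _ Subtype.val_injective).trans_eq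
    (by simp [pow_add, Nat.card_fun]))

end Vale.Agent.P014U.Pq
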